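import Crest.Agent.X212.Nt93.Aff
import Crest.Agent.X212.Nt66.Defs

/-! Row 212, NT-TRF: the transfer between two charts. -/

set_option autoImplicit false
set_option linter.unusedSectionVars false
noncomputable section
open scoped Manifold ContDiff Topology InnerProductSpace
open MeasureTheory Set Function Filter

namespace Crest.Agent.X212.Nt93
open An An.Pre Prm93 Sob92 Mod61 Eqv71 Pj41
open Cht98 (Agr)

variable {E : Type} [NormedAddCommGroup E] [NormedSpace ℝ E] [FiniteDimensional ℝ E]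
  [MeasurableSpace E] [BorelSpace E]
  {HM : Type} [TopologicalSpace HM] {I : ModelWithCorners ℝ E HM} [I.Boundaryless]
  {M : Type} [TopologicalSpace M] [ChartedSpace HM M] [IsManifold I ∞ M]
  [MeasurableSpace M] [T2Space M] [BorelSpace M] [SecondCountableTopology M]
  {ι lam : Type} [Fintype ι] [Fintype lam]
  {T T' : Type} [NormedAddCommGroup T] [NormedSpace ℝ T] [NormedAddCommGroup T'] [NormedSpace ℝ T']
  {𝔉 : Fam I M ι lam T} {𝔉' : Fam I M ι lam T'} {o : Ref 𝔉} {o' : Ref 𝔉'} {r n m k : ℕ} {x : M}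

/-- conjugation of self-dual forms -/
def mC {κ κ' : Type} [Fintype κ] [DecidableEq κ] [Fintype κ'] [DecidableEq κ'] (B : Base M ι lam)
    (u : M → CL (Eu κ) (Eu κ')) (x : M) : CL (Fm (ι × ι) (HS κ)) (Fm (ι × ι) (HS κ')) :=
  ridx (B.sd x) (cj (u x))

theorem mC_apply {κ : Type} [Fintype κ] [DecidableEq κ] (u : M → CL o.m.V (Eu κ))
    {η : Fm (ι × ι) o.m.A} (h : o.P2 x η = η) (s : ι × ι) : mC 𝔉.B u x η s = cj (u x) (η s) := by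
  simp only [mC, ridx_apply, ← map_smul, ← map_sum, idx_sum h]

theorem mp_mC (hB : 𝔉'.B = 𝔉.B) {u : M → CL o'.m.V o.m.V} (h : ∀ x, u x = 0 ∨ x ∈ 𝔉.Om ∧
    ∀ ξ ∈ o'.m.gS x, cj (u x) ξ ∈ o.m.gS x) : Maps o'.P2 o.P2 (mC 𝔉'.B u) := fun x η hη => by
  have e := mC_apply u hη
  rcases h x with h | ⟨hx, h⟩
  · rw [show mC 𝔉'.B u x η = 0 from PiLp.ext fun s => (e s).trans (by
      rw [h, cj_apply, ContinuousLinearMap.zero_comp, map_zero]; rfl), map_zero]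
  · refine idx_of hx (fun s => (e s).symm ▸ h _ (idx_mem hη s)) fun s => ?_
    simp only [e, ← map_smul, ← map_sum, ← hB, idx_sum hη]

namespace Tw
variable {y' : Pnt o' r} {y : Pnt o r} {u : M → CL o'.m.V o.m.V} {ζ : Circle} (X : Tw y' y u ζ)
include X

theorem mpM : Maps o'.Pm o.Pm (mS u ζ) :=
  X.mpS (fun x => Std94.J_pm (Std94.pmx o.ok x)) fun _ hx v =>
    X.B ▸ (X.me hx).pm X.be X.ok.B X.ok.B X.ok1 v

theorem mpC : Maps o'.P2 o.P2 (mC 𝔉'.B (𝔉'.Om.indicator u)) := mp_mC X.B fun x => by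
  by_cases hx : x ∈ 𝔉'.Om
  · exact .inr ⟨X.sub hx, fun ξ k => by
      rw [indicator_of_mem hx]; exact (X.me hx).cj_mem X.be X.ok1 o.ok k⟩
  · exact .inl (indicator_of_notMem hx _)

theorem cC {κ κ' : Type} [Fintype κ] [DecidableEq κ] [Fintype κ'] [DecidableEq κ']
    {v : M → CL (Eu κ) (Eu κ')} (h : 𝔉.F0.Cb v) : 𝔉.F0.Cb (mC 𝔉.B v) :=
  Nat27.cb_ridx (X.ok.dat o).sd (Cb_cj h)

theorem ct : 𝔉.F0.Cb fun x => trn (𝔉'.Om.indicator u x) := Cb_clm trnL X.cu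

/-- the transfer of spinor targets -/
def ΨD (k : ℕ) : 𝔉'.F0.H k o'.Pm →L[ℝ] 𝔉.F0.H k o.Pm := tp k _ _ X.cmp (mS u ζ)

/-- the transfer of curvature targets -/
def ΨC (k : ℕ) : 𝔉'.F0.H k o'.P2 →L[ℝ] 𝔉.F0.H k o.P2 :=
  tp k _ _ X.cmp (mC 𝔉'.B (𝔉'.Om.indicator u))

theorem vD (hk : 4 ≤ k) (e) (hx : x ∈ 𝔉'.Om) :
    𝔉.F0.val _ _ (X.ΨD k e) x = cs o.m.J ζ (u x (𝔉'.F0.val _ _ e x)) :=
  (val_tp X.cmp X.ok.sup X.ok'.sup hk X.cS X.mpM e x).trans (by rw [mS, indicator_of_mem hx]; rfl)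

theorem vC (hk : 4 ≤ k) (e) (hx : x ∈ 𝔉'.Om) (s : ι × ι) :
    𝔉.F0.val _ _ (X.ΨC k e) x s = cj (u x) (𝔉'.F0.val _ _ e x s) := by
  rw [ΨC, val_tp X.cmp X.ok.sup X.ok'.sup hk (X.B ▸ X.cC X.cu) X.mpC,
    mC_apply _ (val_proj X.ok'.sup hk e x), indicator_of_mem hx]

theorem sC (hk : 4 ≤ k) (e : 𝔉.F0.H k o.P2) :
    ∃ e', ∀ x ∈ 𝔉'.Om, 𝔉.F0.val _ _ (X.ΨC k e') x = 𝔉.F0.val _ _ e x := by
  have s := fun x (hx : x ∈ 𝔉'.Om) => (X.me hx).symm X.be X.ok1 o.ok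
  refine ⟨tp k _ _ X.cmp.symm (mC 𝔉.B fun x => trn (𝔉'.Om.indicator u x)) e,
    fun x hx => PiLp.ext fun a => ?_⟩
  have p := val_proj X.ok.sup hk e x
  rw [X.vC hk _ hx, val_tp X.cmp.symm X.ok'.sup X.ok.sup hk (X.cmp.Cb_iff.2 (X.cC X.ct))
    (mp_mC X.B.symm fun x => ?_), mC_apply _ p, indicator_of_mem hx]
  · have := (s x hx).trn_cj (idx_mem p a)
    rwa [trn_trn] at this
  · by_cases hx : x ∈ 𝔉'.Om
    · exact .inr ⟨hx, fun ξ k => by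
        rw [indicator_of_mem hx]
        exact (s x hx).cj_mem (X.be.symm X.ok.B X.ok.B) o.ok X.ok1 k⟩
    · exact .inl (by rw [indicator_of_notMem hx]; exact map_zero trnL)

theorem sD (hO : 𝔉'.Om ∩ 𝔉.Om' ⊆ 𝔉'.Om') (hk : 4 ≤ k) (e : 𝔉.F0.H k o.Pm) :
    ∃ e', ∀ x ∈ 𝔉'.Om, 𝔉.F0.val _ _ (X.ΨD k e') x = 𝔉.F0.val _ _ e x := by
  refine ⟨tp k _ _ X.cmp.symm (𝔉'.Om'.indicator fun x => trn (𝔉'.Om.indicator u x) ∘L
    csL o.m.J (ζ⁻¹ : Circle)) e, fun x hx => ?_⟩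
  have p := val_proj X.ok.sup hk e x
  rw [X.vD hk _ hx, val_tp X.cmp.symm X.ok'.sup X.ok.sup hk (Grp76.Cb_ind X.ok'.Om'
    (X.cmp.Cb_iff.2 (Cb_comp X.ct (Cb_const _)))) fun x v hv => ?_]
  · by_cases h : x ∈ 𝔉'.Om'
    · have q : o.m.p x (𝔉.F0.val k o.Pm e x) = _ := ind_fix p ▸ Eqv71.p_pm o.ok x _
      rw [indicator_of_mem h, indicator_of_mem hx, ContinuousLinearMap.comp_apply,
        ← ContinuousLinearMap.comp_apply (u x), (X.me hx).uu', csL_apply,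
        map_cs (o.ok.Jp x).symm, cs_mul o.ok.Jsq, ← Circle.coe_mul, mul_inv_cancel, Circle.coe_one,
        cs_one, q]
    · rw [indicator_of_notMem h, ind_off p fun k => h (hO ⟨hx, k⟩)]
      simp [← csL_apply]
  · by_cases h : x ∈ 𝔉'.Om'
    · have hx := X.ok'.sub h
      rw [Ref.Pm, indicator_of_mem h, indicator_of_mem h, indicator_of_mem hx,
        ContinuousLinearMap.comp_apply, X.B, ((X.me hx).symm X.be X.ok1 o.ok).pm
        (X.be.symm X.ok.B X.ok.B) X.ok.B X.ok.B o.ok, csL_apply,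
        map_cs (Std94.J_pm (Std94.pmx o.ok x)).symm, ind_fix hv]
    · rw [indicator_of_notMem h, zero_apply, map_zero]

theorem mv0 {θ : T' →L[ℝ] T} (h : ∀ τ, o.b (θ τ) ∈ Hs 𝔉.F0.toPre o.P1)
    (h' : ∀ τ, o'.b τ ∈ Hs 𝔉'.F0.toPre o'.P1) (τ : T') : nB y' y u θ τ ∈ Hs 𝔉.F0.toPre o.P1 := by
  refine sub_mem (hs_tp X.cmp X.ok.sup X.ok'.sup X.cA X.mpA (h' τ)) ?_
  have k := Hs_mul X.ok.sup (q := o.P1) (Grp76.Cb_ind X.ok'.Om (Cb_const (.id ℝ _)))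
    (fun z v hv => by by_cases hz : z ∈ 𝔉'.Om <;> simp [hz, hv]) (h τ)
  convert k using 1
  funext z
  by_cases hz : z ∈ 𝔉'.Om <;> simp [hz]

end Tw

/-- **NT-TRF** -/
theorem trf : Nt66.TrfStmt I M ι lam := by
  intro T T' _ _ _ _ _ 𝔉 𝔊 o o' r k y y' l g ζ N hk h h' hB hc s1 s2 _ _ hy hN e hb hb'
  have a0 : Agr (𝔊.G y'.t) (𝔉.G y.t) 𝔊.Om := by simpa using (hN _ hy).2
  have X : Tw y' y g ζ := ⟨h', h, hB, hc.symm, s1, s2 ▸ inter_subset_right, a0,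
    Wrd81.ceq_on e fun x hx a => (a0.e x hx a).symm⟩
  obtain ⟨Λ, a⟩ := X.act (X.mv0 (θ := l) (fun _ => hb _) hb') (k := k) (by omega)
  refine ⟨Λ, X.ΨD k, X.ΨC k, fun e x hx => X.vD hk e hx, fun e x hx => X.vC hk e hx,
    X.sD s2.ge hk, X.sC hk, fun z hz => ?_⟩
  obtain ⟨w, h1, h2, h3, -⟩ := X.pnt (X.mv0 (fun _ => hb _) hb') (by omega) a z (hN _ hz).1
    (hN _ hz).2
  exact ⟨w, h2, h1, Wrd81.ceq_on h3 fun x hx a => h1 ▸ (hN _ hz).2.e x hx a⟩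

end Crest.Agent.X212.Nt93
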