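import Crest.Agent.X212.Rf65.Pl

/-! Row 212, NT: the regularity of the outer part seen in a chart of the whole face. -/

set_option autoImplicit false
set_option linter.unusedSectionVars false
noncomputable section
open Set Function

namespace Crest.Agent.X212.Nt93
open An M Nd18 Mod61 Nk89 Cht98 Rf65
open An.Job (Sol)

variable {Wi : Type} {X : Mf 4} {A κ lam : Type} [Fintype A] [Fintype κ] [Fintype lam]
  [DecidableEq lam] {M : Mark X A κ} {W : World M} {N : ML M lam} {Λ : Lns W N}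
  {A' h : Type} [Fintype A'] [DecidableEq A'] [Fintype h] {r n : ℕ}
  {J : Job Wi Λ A' h r n} {c : M.Cl} {p : Prt A A' h} {U : Type} [Fintype U] {δ : ℝ}

/-- variations supported over `O` and at the cuts `Hs` hit all targets over `O`, in the rows and at
the cuts `Hs` -/
def Hit {b : Bp J c} (E : EC b p U δ) (O : Set (W.Z c).M) (Hs : Set h) (q : Wi →₀ ℝ)
    (x : Pnt E.o r) (ψ : E.K) : Prop :=
  ∀ f, E.Map q f → ∀ e : E.Y, ∃ v : E.C,
    (∀ z ∉ O, (b.F p U δ).F0.val _ E.o.P1 v.1.1 z = 0 ∧ (b.F p U δ).F0.val _ E.o.Pp v.1.2.1 z = 0) ∧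
    (∀ i : p.H, i.1 ∉ Hs → v.2 i = 0) ∧
    (∀ z ∈ O, (b.F p U δ).F0.val 8 E.o.Pm (fderiv ℝ f (x.pt 8, ψ) v - e).1.1 z = 0 ∧
      (b.F p U δ).F0.val 8 E.o.P2 (fderiv ℝ f (x.pt 8, ψ) v - e).1.2.1 z = 0) ∧
    (fderiv ℝ f (x.pt 8, ψ) v - e).1.2.2 = 0 ∧
    ∀ i : p.H, i.1 ∈ Hs → (fderiv ℝ f (x.pt 8, ψ) v - e).2.1 i = 0 ∧
      (fderiv ℝ f (x.pt 8, ψ) v - e).2.2 i = 0

variable (J c δ) in
/-- **LEAF REG-TR** -/
def RegTr (sh : Set A') (σ : Cel A') (n₀ : ℤ) : Prop := AnH J c δ sh σ → ∀ q y x, Sol σ q y →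
  FA J c σ n₀ y x → RegO J c δ sh σ q y x → dz (J.xs x).D (y.β x true) = 1 →
  ∀ (b : Bp J c) (E : EC b (pW J c sh σ x) _ δ) x' ψ,
    E.Gd σ (muF J c {hp x true, hp x false}) q y x' ψ →
    Hit E (W.pc c (hp x true)) (pO J c sh σ x).H q x' ψ

end Crest.Agent.X212.Nt93
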