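import Crest.Agent.X212.Nt93.Hit
import Crest.Agent.X212.Pat85.UqA

/-! Row 212, NT: the regularity of a sub-part seen in a chart of the larger part. -/

set_option autoImplicit false
set_option linter.unusedSectionVars false
noncomputable section
open scoped Manifold ContDiff Topology InnerProductSpace
open Set Function Filter

namespace Crest.Agent.X212.Nt93
open An M Nd18 Mod61 Nk89 Cht98 Rf65 Pte3 Eqv71 Wrd81 Sob92
open An.Job (SolOn)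
open Cnt93 (Rh rel_refl)
open ContinuousLinearMap (pi proj)

theorem aff {V W : Type} [NormedAddCommGroup V] [NormedSpace ℝ V] [NormedAddCommGroup W]
    [NormedSpace ℝ W] {L : V →L[ℝ] W} {a : V} (b : V) {c : W} (h : c = L a) :
    c + L (b - a) = L b := by rw [h, ← map_add, add_sub_cancel]

variable {Wi : Type} {X : Mf 4} {A κ lam : Type} [Fintype A] [Fintype κ] [Fintype lam]
  [DecidableEq lam] {M : Mark X A κ} {W : World M} {N : ML M lam} {Λ : Lns W N}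
  {A' h : Type} [Fintype A'] [DecidableEq A'] [Fintype h] {r n : ℕ}
  {J : Job Wi Λ A' h r n} {c : M.Cl} {σ : Cel A'} {p p' : Prt A A' h} {U U' : Type} [Fintype U]
  [Fintype U'] {δ : ℝ} {b b' : Bp J c} {E : EC b p U δ} {E' : EC b' p' U' δ} {q : Wi →₀ ℝ}
  {y : J.Obc c} {x : Pnt E.o r} {ψ : E.K} {x' : Pnt E'.o r} {ψ' : E'.K}

namespace Sb
variable (Z : Sb (σ := σ) E E' q y x ψ x' ψ')
include Z

section key
variable {u : (W.Z c).M → CL E'.o.m.V E.o.m.V} {ζ : Circle} (T : Tw x' x u ζ) {η : p'.H → Circle}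
  {l : (U' → ℝ) →L[ℝ] (U → ℝ)}
variable (hη : ∀ i : p'.H, ψ ⟨i, Z.K i.2⟩ = Rh _ _ _ _ u (η i) (ψ' i)) {Λ : E'.o.C r 8 →L[ℝ] E.o.C r 8}
  (a : Act 8 x' x u ζ (θL p p' l) Λ)
  (mv : ∀ τ, nB x' x u (θL p p' l) τ ∈ Mod61.Hs (b.F p U δ).F0.toPre E.o.P1)
  {f : E.C → E.Y} {f' : E'.C → E'.Y} (hf : E.Map q f) (hf' : E'.Map q f')
include hη a mv hf hf'

omit a mv hf hf' in
theorem ΨK_aff (χ : E'.K) {i : p.H} (k : i.1 ∈ p'.H) :
    (ψ + ΨK E E' u η (χ - ψ')) i = Rh _ _ _ _ u (η ⟨i, k⟩) (χ ⟨i, k⟩) :=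
  (congrArg (ψ i + ·) (ΨK_in η _ k)).trans (aff (χ ⟨i, k⟩) (hη ⟨i, k⟩))

omit hη a mv in
theorem key1 {w : Pnt E.o r} {w' : Pnt E'.o r} (s : ∀ a ∈ p'.V, b'.θ p' U' w'.t a = b.θ p U w.t a)
    (e : Mod61.EqOn (J.B c) (J.G c (b.θ p U w.t)).F (W.un c p'.P) w'.cfg w.cfg u ζ)
    (z0 : ∀ z ∉ W.un c p'.P, w.cfg.Φ z = 0) {χ : E.K} {χ' : E'.K}
    (e1 : ∀ (i : p.H) (k : i.1 ∈ p'.H), χ i = Rh _ _ _ _ u (η ⟨i, k⟩) (χ' ⟨i, k⟩)) :
    ob p' E (f (w.pt 8, χ)) = ob p' E (Ξ T η (f' (w'.pt 8, χ'))) :=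
  have n := Z.natE s e z0 (hf.e w χ) (hf'.e w' χ')
  .trans (ob_iff.2 ⟨⟨fun z hz => ⟨(n.1 z hz).1.trans (T.vD (by norm_num) _ hz).symm, PiLp.ext fun i =>
    ((n.1 z hz).2 i).trans (T.vC (by norm_num) _ hz i).symm⟩, n.2⟩, fun i k =>
      have m := Z.natK (q := q) s e z0 ⟨i, k⟩ (η ⟨i, k⟩) (χ' ⟨i, k⟩)
      ⟨((hf.row w χ i).trans (congrArg _ (e1 i k))).trans (m.1.trans
        ((congrArg _ (hf'.row w' _ _).symm).trans (ΨK_in η _ k).symm)),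
      (hf.nrm w χ i).trans ((congrArg (fun v => v ^ 2 - 1) ((congrArg _ (e1 i k)).trans m.2)).trans
        ((hf'.nrm w' _ _).symm.trans (ex0_in _ k).symm))⟩⟩) (congrArg _ (Ξ_apply T η _).symm)

theorem key0 (w' : Pnt E'.o r) (χ : E'.K) : ob p' E (f (x.pt 8 + Λ (w'.pt 8 - x'.pt 8),
    ψ + ΨK E E' u η (χ - ψ'))) = ob p' E (Ξ T η (f' (w'.pt 8, χ))) :=
  have ht := Z.θ_Q l w'.ht
  have ⟨w, h1, h2, h3, h4⟩ := T.pnt mv (by norm_num) a w' ht (Z.H'.pok.agr Z.H'.ok Z.H'.mem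
    (Z.H'.ovx w') (Z.H.ov Z.H.hb ht) (Z.θ_in l))
  (congrArg (fun s => ob p' E (f (s, _))) h2.symm).trans (Z.key1 T hf hf' (h1 ▸ Z.θ_in l) h3
    (fun z hz => (h4 z hz).trans (Z.off hz)) fun _ k => Z.ΨK_aff hη χ k)

theorem key (v : E'.C) : ob p' E (fderiv ℝ f (x.pt 8, ψ) (Λ.prodMap (ΨK E E' u η) v)) =
    ob p' E (Ξ T η (fderiv ℝ f' (x'.pt 8, ψ') v)) := by
  have o' := ((isOpen_U (r := r) (k := 8) (o := E'.o) Z.H'.F).prod isOpen_univ).mem_nhds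
    (show ((x'.pt 8, ψ') : E'.C) ∈ _ from ⟨x'.mem_U, trivial⟩)
  have o := ((isOpen_U (r := r) (k := 8) (o := E.o) Z.H.F).prod isOpen_univ).mem_nhds
    (show ((x.pt 8, ψ) : E.C) ∈ _ from ⟨x.mem_U, trivial⟩)
  refine fd_ob ((hf.sm.contDiffAt o).differentiableAt (by simp))
    ((hf'.sm.contDiffAt o').differentiableAt (by simp)) (eventually_of_mem o' fun v hv => ?_) v
  exact eqOn_U Z.H'.F (by norm_num)
    (f := fun w => ob p' E (f (x.pt 8 + Λ (w - x'.pt 8), ψ + ΨK E E' u η (v.2 - ψ'))))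
    (g := fun w => ob p' E (Ξ T η (f' (w, v.2)))) ((ob p' E).continuous.comp_continuousOn
      (hf.sm.continuousOn.comp (by fun_prop) fun w hw => ⟨(congrArg (fun s => x.t + s.2 ∈
        (b.F p U δ).Q) (a.z (w - x'.pt 8))).mpr (Z.θ_Q l hw), trivial⟩))
    ((ob p' E ∘L Ξ T η).continuous.comp_continuousOn (hf'.sm.continuousOn.comp (by fun_prop)
      fun _ k => ⟨k, trivial⟩)) (fun w' => Z.key0 T hη a mv hf hf' w' v.2) hv.1

end key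

/-- **regularity of the sub-part** -/
theorem hit (mv : ∀ u ζ, Tw x' x u ζ → ∃ l : (U' → ℝ) →L[ℝ] (U → ℝ), ∀ θ : Tq p' U' →L[ℝ] Tq p U,
    (∀ τ, (θ τ).2 = l τ.2) → ∀ τ, nB x' x u θ τ ∈ Mod61.Hs (b.F p U δ).F0.toPre E.o.P1)
    (rg : E'.Reg q x' ψ') : Hit E (W.un c p'.P) p'.H q x ψ := by
  obtain ⟨f', hf', sj⟩ := rg
  obtain ⟨u, ζ, T, ec⟩ := Z.tw
  obtain ⟨l, hl⟩ := mv u ζ T
  have mv := hl (θL p p' l) fun _ => rfl
  obtain ⟨Λ, a⟩ := T.act mv (k := 8) (by norm_num)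
  have k0 := Z.cr Z.s0 T.e fun _ => Z.off
  have g0 := (Z.kt (Z.H'.ovx x') (Z.H.ovx x) Z.s0).of_ceq k0.adm k0.adm' k0.e
  have rl := fun i : p'.H => rel_refl g0.hB (Z.H'.cut_sub i)
  choose η hη using fun i => (Cnt93.eqv_iff g0 (rl i)).1 (ec i)
  choose e1 h1 using T.sD (fun _ k => biUnion_subset_biUnion_left Z.e k.1) (k := 8) (by norm_num)
  choose e2 h2 using T.sC (k := 8) (by norm_num)
  choose e3 h3 using fun i : p'.H => Rh_surj g0 (rl i) (η i)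
  choose v hv using sj
  intro f hf e
  let v := v ((e1 e.1.1, e2 e.1.2.1, ((ζ⁻¹ : Circle) : ℂ) ^ 2 • e.1.2.2.1, e.1.2.2.2),
    fun i => e3 i (e.2.1 ⟨i, Z.K i.2⟩), fun i => e.2.2 ⟨i, Z.K i.2⟩)
  have k := (ob_iff (e' := e)).1 ((Z.key T hη a mv hf hf' v).trans ((congrArg _ ((congrArg _
    (hv _)).trans (Ξ_apply T η _))).trans (ob_iff.2 ⟨⟨fun z hz => ⟨h1 _ z hz, h2 _ z hz⟩, Prod.ext
    ((congrArg (fun s : Circle => (s : ℂ) ^ 2 • _) (inv_inv ζ).symm).trans (sq_inv_smul ζ⁻¹ _)) rfl⟩,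
      fun i k => ⟨(ΨK_in η _ k).trans (h3 ⟨i, k⟩ _), ex0_in _ k⟩⟩)))
  refine ⟨_, fun z hz => ⟨(a.α v.1 z).trans ?_, (a.φ v.1 z).trans ?_⟩, fun i k => ΨK_out η v.2 k,
    fun z hz => ⟨(congrFun (val_sub _ _) z).trans (sub_eq_zero.2 (k.1.1 z hz).1),
      (congrFun (val_sub _ _) z).trans (sub_eq_zero.2 (k.1.1 z hz).2)⟩, sub_eq_zero.2 k.1.2,
    fun i j => ⟨sub_eq_zero.2 (k.2 i j).1, sub_eq_zero.2 (k.2 i j).2⟩⟩
  · have hz : z ∉ (b'.F p' U' δ).Om := hz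
    have : mA x' x u z = 0 := ContinuousLinearMap.ext fun ξ => PiLp.ext fun j => by
      simp [mA, ridx_apply, hz, cj_apply]
    simp [nB, this, hz]
  · have hz : z ∉ (b'.F p' U' δ).Om := hz
    simp [mS, hz]

end Sb

theorem solOn {p : Prt A A' h} (k : Job.Sol σ q y) (t : y.Tight) (hp : J.POK σ c p)
    (z : ∀ z ∉ W.un c p.P', y.x.Φ z = 0) : SolOn p σ q y :=
  ⟨k.cell, k.inf, k.sol.toAdm, z, fun z _ => k.sol.D z, fun z _ => k.sol.C z, k.sol.S,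
    fun i hi => k.cut i (by_contra fun e => by
      have := k.drop
      rw [t.1, Nat.le_zero, ncard_eq_zero (toFinite _)] at this
      exact this.le ⟨Job.unc_of hp.pc (hp.nb i hi), e⟩),
    fun a b ha _ => k.lim a b ha, fun a ha b _ => k.crit a ha b, k.int.integrableOn⟩

/-- **REG-TR** -/
theorem regTr (mv : MvStmt J c) {sh : Set A'} {n₀ : ℤ} : RegTr J c δ sh σ n₀ := by
  intro H q y a s f ⟨b', E', x', ψ', g', rg⟩ dz b E x ψ g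
  have sb : ({hp a true} : Set (Reg A)) ⊆ {hp a true, hp a false} := fun _ k => .inl k
  have pc : ∀ π ∈ ({hp a true, hp a false} : Set (Reg A)), M.sys.Piece c.1 π := by
    rintro _ (rfl | rfl) <;> exact Mp86.St.hp_mem f.1.2.1 _
  have H1 : CS σ E := ⟨⟨H.ok, H.mem, H.loc.pok σ H.mem c _ _ _ pc Subset.rfl⟩, g.ch.ok, g.ch.ov, g.sm⟩
  have H2 : CS σ E' := ⟨⟨H.ok, H.mem, H.loc.pok σ H.mem c _ _ _ (fun π k => pc π (sb k)) Subset.rfl⟩,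
    g'.ch.ok, g'.ch.ov, g'.sm⟩
  have S2 := solOn s f.1.2.2.2.1 H2.pok fun _ hz =>
    Job.Obc.zero f.2.1 (not_not.1 (Pat85.un_out (W := W) f.1.2.1 ▸ hz :))
  have S1 := solOn s f.1.2.2.2.1 H1.pok fun z hz =>
    S2.off z fun k => hz (biUnion_subset_biUnion_left sb k)
  have ed : ∀ i ∈ EdP c {hp a true}, i.1.1 = a ∧ i.2 = true := fun i ⟨_, k, e⟩ =>
    Mp86.St.hp_some.1 (k ▸ e)
  have := Sb.hit ⟨H1, H2, S2, g.ch.rep, g'.ch.rep, sb, sb, Subset.rfl, fun _ k => ⟨k.1, k.2.1,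
    k.2.2.imp_right fun ⟨π, h1, h2⟩ => ⟨π, sb h1, h2⟩⟩, fun _ k =>
      ⟨trivial, k.2.trans (biUnion_subset_biUnion_left sb)⟩⟩ (fun u ζ T => mv H.pj σ δ _ _ _ _ b b' E E'
    x x' u ζ H1 H2 T sb (fun i k j k' => Prod.ext (Subtype.ext ((ed i k).1.trans (ed j k').1.symm))
      ((ed i k).2.trans (ed j k').2.symm)) fun i k => ?_) rg
  · exact un_one W.toCaps c _ ▸ this
  · have k' : i ∈ EdP c {hp a true, hp a false} := let ⟨π, h1, h2⟩ := k; ⟨π, sb h1, h2⟩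
    refine ⟨?_, (Sym93.dz_sl H1 S1 g.ch.rep k').trans ?_⟩
    · rw [g.ch.hμ, g'.ch.hμ]
      simp [mu, k', show i ∈ EdP c {hp a true} from k]
    · obtain ⟨⟨i, _⟩, d⟩ := i
      obtain ⟨rfl, rfl⟩ := ed _ k
      exact dz

end Crest.Agent.X212.Nt93
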