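import Crest.Agent.X212.Nt93.Trf
import Crest.Agent.X212.Nt93.Defs

/-! Row 212, NT: the moving parts of two charts agree up to a decaying term. -/

set_option autoImplicit false
set_option linter.unusedSectionVars false
noncomputable section
open Set Function

namespace Crest.Agent.X212.Nt93
open An M Nd18 Mod61 Nk89 Cht98 Rf65 Pte3

variable {Wi : Type} {X : Mf 4} {A κ lam : Type} [Fintype A] [Fintype κ] [Fintype lam]
  [DecidableEq lam] {M : Mark X A κ} {W : World M} {N : ML M lam} {Λ : Lns W N}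
  {A' h : Type} [Fintype A'] [DecidableEq A'] [Fintype h] {r n : ℕ}
  (J : Job Wi Λ A' h r n) (c : M.Cl)

/-- **LEAF MV** -/
def MvStmt : Prop := PJ J c → ∀ σ δ (p p' : Prt A A' h) (U U' : Type) [Fintype U] [Fintype U']
  (b b' : Bp J c) (E : EC b p U δ) (E' : EC b' p' U' δ) (x : Pnt E.o r) (x' : Pnt E'.o r) u ζ,
  CS σ E → CS σ E' → Tw x' x u ζ → p'.P ⊆ p.P → (EdP c p'.P).Subsingleton →
  (∀ i ∈ EdP c p'.P, (E.μ i = none ↔ E'.μ i = none) ∧
    dz (J.xs i.1).D ((en E i).sl E.o (E.R + 1) x.t) = 1) →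
  ∃ l : (U' → ℝ) →L[ℝ] (U → ℝ), ∀ θ : Tq p' U' →L[ℝ] Tq p U, (∀ τ, (θ τ).2 = l τ.2) →
    ∀ τ, nB x' x u θ τ ∈ Mod61.Hs (b.F p U δ).F0.toPre E.o.P1

end Crest.Agent.X212.Nt93
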