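import Crest.Agent.X212.Kit16.Pt
import Crest.Agent.X212.Nat27.Op

/-! Row 212, NT: the affine change of chart between two families over one base. -/

set_option autoImplicit false
set_option linter.unusedSectionVars false
noncomputable section
open scoped Manifold ContDiff Topology InnerProductSpace
open MeasureTheory Set Function Filter

namespace Crest.Agent.X212.Nt93
open An An.Pre Prm93 Sob92 Mod61 Eqv71 Pj41
open Wz78 (pg_eq_zero pg_of_mem pg_mul_p trE)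
open Cht98 (Agr)

section alg
variable {ι V V' : Type} [Fintype ι] [NormedAddCommGroup V] [InnerProductSpace ℝ V]
  [NormedAddCommGroup V'] [InnerProductSpace ℝ V']

theorem rr (S S' : Matrix ι ι ℝ) (C : V' →L[ℝ] V) (ξ : Fm ι V') :
    ridx S (.id ℝ V) (ridx S' C ξ) = ridx (S * S') C ξ := ridx_ridx _ _ _ _ _

theorem alg {S S0 Si0 S' S0' Si0' P : Matrix ι ι ℝ} (co : S = S' * Si0' * S0) (h1 : S0 * Si0 = P)
    (h2 : P * S0' = S0') (h3 : Si0' * S0' = P) (h4 : S' * P = S') {C : V' →L[ℝ] V}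
    {X0 : Fm ι V} {X0' : Fm ι V'} (h0 : ridx S0 (.id ℝ V) X0 = ridx S0' C X0') (Y : Fm ι V') :
    ridx S (.id ℝ V) (X0 + ridx (Si0 * S0') C Y) = ridx S' C (X0' + Y) := by
  have e : S' * Si0' * S0' = S' := by rw [mul_assoc, h3, h4]
  rw [map_add, map_add, rr, co, ← rr _ S0, h0, rr, e, mul_assoc _ S0, ← mul_assoc S0, h1, h2, e]

end alg

variable {E : Type} [NormedAddCommGroup E] [NormedSpace ℝ E] [FiniteDimensional ℝ E]
  [MeasurableSpace E] [BorelSpace E]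
  {HM : Type} [TopologicalSpace HM] {I : ModelWithCorners ℝ E HM} [I.Boundaryless]
  {M : Type} [TopologicalSpace M] [ChartedSpace HM M] [IsManifold I ∞ M]
  [MeasurableSpace M] [T2Space M] [BorelSpace M] [SecondCountableTopology M]
  {ι lam : Type} [Fintype ι] [Fintype lam]
  {T T' : Type} [NormedAddCommGroup T] [NormedSpace ℝ T] [NormedAddCommGroup T'] [NormedSpace ℝ T']
  {𝔉 : Fam I M ι lam T} {𝔉' : Fam I M ι lam T'} {o : Ref 𝔉} {o' : Ref 𝔉'} {r n m k : ℕ} {x : M}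

theorem pg_cl {μ : Md M ι lam} {B : Base M ι lam} (H : μ.OK I B) (b c : ι) :
    μ.pg x (hsL (μ.ρ b x * μ.ρ c x)) = 0 := pg_eq_zero fun η hη => by
  have h1 : trE (opL η * (μ.ρ b x * μ.ρ c x)) = trE (opL η * (μ.ρ c x * μ.ρ b x)) := by
    rw [← mul_assoc, ← Wz78.g_ρ hη, mul_assoc, Wz78.trE_comm, mul_assoc]
  have h2 : trE (opL η) = 0 := by
    rw [Wz78.trE_apply]
    refine Finset.sum_eq_zero fun i _ => ?_
    have := Wz78.g_skw hη (EuclideanSpace.single i 1) (EuclideanSpace.single i 1)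
    rw [real_inner_comm, EuclideanSpace.inner_single_left] at this
    simp only [map_one, one_mul] at this
    linarith
  have h3 := congrArg (fun S => trE (opL η * S)) ((H.cl x).rel b c)
  simp only [mul_add, map_add, mul_smul_comm, map_smul, Wz78.g_p' H hη, h2, smul_zero] at h3
  rw [Wz78.inner_skw (Wz78.g_skw hη)]
  linarith

/-- the `g`-part of the connection of a point -/
theorem pg_W (h : 𝔉.OK) (y : Pnt o r) (a : ι) : o.m.pg x (hsL (o.W y.t y.α a x)) =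
    ∑ b, 𝔉.S y.t x a b • (o.m.pg x (hsL (o.A0 b x)) + (o.b y.t x b + y.α x b)) := by
  simp only [W_apply, Fam.W0, Ref.A, Md.addC, map_add, map_sum, map_smul, hsL_opL, pg_cl o.ok,
    Wz78.pg_Jp h.B o.ok, smul_zero, Finset.sum_const_zero, zero_add, pg_of_mem (o.b_mem _ x _),
    pg_of_mem (idx_mem (y.pα h x) _), smul_add, Finset.sum_add_distrib, add_assoc]

theorem cb_W (h : 𝔉.OK) (y : Pnt o r) (a : ι) : 𝔉.F0.Cb (o.W y.t y.α a) := by
  have := Cb_clm (Map77.oa a) (Map77.cb_uy h y)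
  simp only [Map77.uy, Map77.oa_base] at this
  exact this

theorem co_eq {F : Fr I M ι} {X Y : ι → ℝ} (e : ∑ b, X b • F.e b x = ∑ b, Y b • F.e b x)
    (hX : ∀ b, ∑ c, X c * F.P c b x = X b) (hY : ∀ b, ∑ c, Y c * F.P c b x = Y b) : X = Y := by
  funext b
  have := F.P_ker x (fun c => X c - Y c) (by simp only [sub_smul, Finset.sum_sub_distrib, e, sub_self]) b
  simp only [sub_mul, Finset.sum_sub_distrib, sub_eq_zero, F.P_symm b, mul_comm (F.P _ b x)] at this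
  rw [← hX, this, hY]

section tp
variable {V V' : Type} [NormedAddCommGroup V] [InnerProductSpace ℝ V] [CompleteSpace V]
  [NormedAddCommGroup V'] [InnerProductSpace ℝ V'] [CompleteSpace V'] {p : M → V →L[ℝ] V}
  {p' : M → V' →L[ℝ] V'} {F F' : Fr I M ι} (c : Cmp F'.toPre F.toPre) {S S' : ℝ}
  (hS : Sup F.toPre S) (hS' : Sup F'.toPre S') {f : M → V' →L[ℝ] V}

variable (k p p' f) in
/-- change of the frame and multiplication -/
def tp : F'.H k p' →L[ℝ] F.H k p := F.mulH k p' p f ∘L (chg k p' c : F'.H k p' →L[ℝ] F.H k p')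

include hS hS'

theorem val_chg (hk : 4 ≤ k) (v : F'.H k p') : F.val k p' (chg k p' c v) = F'.val k p' v :=
  funext fun x => H_eq (f := fun v => F.val k p' (chg k p' c v) x) (g := fun v => F'.val k p' v x)
    ((continuous_val_apply x).comp (chg k p' c).continuous) (continuous_val_apply x)
    (fun w => by rw [chg_toH, val_toH hS hk, val_toH hS' hk]) v

theorem val_tp (hk : 4 ≤ k) (hf : F.Cb f) (hm : Maps p' p f) (v : F'.H k p') (x : M) :
    F.val k p (tp k p p' c f v) x = f x (F'.val k p' v x) :=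
  (val_mulH hS hk hf hm _ x).trans (congrArg (fun g => f x (g x)) (val_chg c hS hS' hk v))

include c in
theorem hs_tp (hf : F.Cb f) (hm : Maps p' p f) {v : M → V'} (hv : v ∈ Hs F'.toPre p') :
    (fun x => f x (v x)) ∈ Hs F.toPre p := fun k hk => by
  obtain ⟨w, rfl⟩ := hv k hk
  exact ⟨_, funext (val_tp c hS hS' hk hf hm w)⟩

end tp

/-- two points of two families over one base, equivalent over the smaller set -/
structure Tw (y' : Pnt o' r) (y : Pnt o r) (u : M → CL o'.m.V o.m.V) (ζ : Circle) : Prop where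
  ok' : 𝔉'.OK
  ok : 𝔉.OK
  B : 𝔉'.B = 𝔉.B
  cmp : Cmp 𝔉'.F0.toPre 𝔉.F0.toPre
  sub : 𝔉'.Om ⊆ 𝔉.Om
  sub' : 𝔉'.Om' ⊆ 𝔉.Om'
  agr : Agr (𝔉'.G y'.t) (𝔉.G y.t) 𝔉'.Om
  e : EqOn 𝔉.B (𝔉.G y.t).F 𝔉'.Om y'.cfg y.cfg u ζ

variable (y' : Pnt o' r) (y : Pnt o r) (u : M → CL o'.m.V o.m.V) (ζ : Circle) (θ : T' →L[ℝ] T)

/-- the coefficient on forms -/
def mA (x : M) : CL (Fm ι o'.m.A) (Fm ι o.m.A) :=
  ridx (Matrix.of (𝔉.Si y.t x) * Matrix.of (𝔉'.S y'.t x)) (cj (𝔉'.Om.indicator u x))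

/-- the defect of the moving parts -/
def nB : T' →ₗ[ℝ] M → Fm ι o.m.A where
  toFun τ x := mA y' y u x (o'.b τ x) - 𝔉'.Om.indicator (o.b (θ τ)) x
  map_add' s t := funext fun x => by
    simp only [map_add, Pi.add_apply, indicator_add']; abel
  map_smul' s t := funext fun x => by
    simp only [map_smul, Pi.smul_apply, smul_sub, RingHom.id_apply, ← Mod61.ind_smul]

/-- the coefficient on spinors -/
def mS (x : M) : CL o'.m.V o.m.V := csL o.m.J ζ ∘L 𝔉'.Om.indicator u x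

namespace Tw
variable {y' y u ζ} (X : Tw y' y u ζ)
include X

theorem ok1 : o'.m.OK I 𝔉.B := X.B ▸ o'.ok

theorem me (hx : x ∈ 𝔉'.Om) : ME o'.m x o.m x (fun b a => 𝔉.B.P b a x) (𝔉.B.l x) (u x) :=
  me_of_meq X.e.m hx

theorem be : BE 𝔉.B x 𝔉.B x (fun b a => 𝔉.B.P b a x) (𝔉.B.l x) := .refl X.ok.B x

theorem cu : 𝔉.F0.Cb (𝔉'.Om.indicator u) := by
  have C := (y.ad0 X.ok).conn
  refine cb_ind_of_ode (L := fun a x => ∑ b, 𝔉.Si y.t x a b •
    ((ContinuousLinearMap.compL ℝ o'.m.V o'.m.V o.m.V).flip (o'.W y'.t y'.α b x) -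
      ContinuousLinearMap.compL ℝ o'.m.V o.m.V o.m.V (o.W y.t y.α b x))) X.ok'.Om
    (X.e.m.su.of_le (by simp)) (fun x hx a => ?_) (fun a => Cb_sum _ fun b _ => Cb_smul
      ((X.ok.sSi a b).cb _ y.ht) (Cb_sub (Cb_clm _ (X.cmp.Cb_iff.1 (cb_W X.ok' y' b)))
        (Cb_clm _ (cb_W X.ok y b)))) (C := 1) fun x hx =>
      (u x).opNorm_le_bound zero_le_one fun a => ?_
  · rw [(Map77.mix_inv X.ok y.ht).D, _root_.sum_apply]
    exact Finset.sum_congr rfl fun b _ => congrArg _ (eq_sub_of_add_eq (sub_eq_zero.1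
      ((par0_iff ((IsConn.on C _).proj' X.ok.B)).2 X.e.W x hx b)))
  · rw [one_mul]
    exact norm_le_of_proj (X.me hx).inner (fun a => by
      rw [o'.ok.psym, ← mul_apply_eq_comp, o'.ok.pidem]) a

theorem cA : 𝔉.F0.Cb (mA y' y u) :=
  Nat27.cb_ridx (fun a b => Cb_sum _ fun c _ => Cb_smul ((X.ok.sSi a c).cb _ y.ht)
    (X.cmp.Cb_iff.1 ((X.ok'.sS c b).cb _ y'.ht))) (Cb_cj X.cu)

theorem cS : 𝔉.F0.Cb (mS u ζ) := Cb_comp (Cb_const _) X.cu

theorem mpA : Maps o'.P1 o.P1 (mA y' y u) := fun x η hη => by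
  by_cases hx : x ∈ 𝔉'.Om
  · refine idx_of (X.sub hx) (fun a => ?_) fun a => ?_
    · rw [mA, ridx_apply, indicator_of_mem hx]
      exact Submodule.sum_mem _ fun b _ => Submodule.smul_mem _ _
        ((X.me hx).cj_mem X.be X.ok1 o.ok (idx_mem hη b))
    · have := rr (.of fun a b => 𝔉.B.P a b x) (Matrix.of (𝔉.Si y.t x) * Matrix.of (𝔉'.S y'.t x))
        (cj (𝔉'.Om.indicator u x)) η
      rw [← mul_assoc, show Matrix.of (fun a b => 𝔉.B.P a b x) * Matrix.of (𝔉.Si y.t x) =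
        Matrix.of (𝔉.Si y.t x) from Matrix.ext (X.ok.PSi _ y.ht x)] at this
      exact (ridx_apply _ (.id ℝ _) _ a).symm.trans (congrArg (fun ξ => ξ a) this)
  · rw [idx_off hη hx, map_zero, map_zero]

theorem mpS {p' : M → En (Fin o'.m.N)} {p : M → En (Fin o.m.N)}
    (hJ : ∀ x, o.m.J * p x = p x * o.m.J) (hp : ∀ x ∈ 𝔉'.Om, ∀ v, p x (u x v) = u x (p' x v)) :
    Maps (𝔉'.Om'.indicator p') (𝔉.Om'.indicator p) (mS u ζ) := fun x v hv => by
  by_cases hx : x ∈ 𝔉'.Om'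
  · rw [indicator_of_mem (X.sub' hx), mS, indicator_of_mem (X.ok'.sub hx),
      ContinuousLinearMap.comp_apply, csL_apply, map_cs (hJ x).symm, hp x (X.ok'.sub hx), ind_fix hv]
  · rw [ind_off hv hx, map_zero, map_zero]

theorem mpP : Maps o'.Pp o.Pp (mS u ζ) :=
  X.mpS (fun x => Std94.J_pp (Std94.pmx o.ok x)) fun _ hx v =>
    X.B ▸ (X.me hx).pp X.be X.ok.B X.ok.B X.ok1 v

/-- the defect of parallelism -/
theorem df (hx : x ∈ 𝔉'.Om) (w' : Pnt o' r) (w : Pnt o r) (a : ι) :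
    o.m.pg x (hsL (((𝔉.G w.t).F.D a u x + o.W w.t w.α a x ∘L u x - u x ∘L o'.W w'.t w'.α a x) ∘L
      trn (u x))) =
      ridx (Matrix.of (𝔉.S w.t x)) (.id ℝ _) (WithLp.toLp 2 (fun b => o.m.pg x (hsL
        (𝔉.F0.D b u x ∘L trn (u x))) + o.m.pg x (hsL (o.A0 b x))) + (o.b w.t x + w.α x)) a -
      ridx (Matrix.of (𝔉'.S w'.t x)) (cj (u x)) (WithLp.toLp 2 (fun b =>
        o'.m.pg x (hsL (o'.A0 b x))) + (o'.b w'.t x + w'.α x)) a := by
  have e := X.me hx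
  have h1 : (o.W w.t w.α a x ∘L u x) ∘L trn (u x) = o.W w.t w.α a x * o.m.p x := by
    rw [ContinuousLinearMap.comp_assoc, e.uu']; rfl
  rw [ContinuousLinearMap.sub_comp, ContinuousLinearMap.add_comp, h1, map_sub, map_add, map_sub,
    map_add, pg_mul_p, ContinuousLinearMap.comp_assoc, ← cj_hsL,
    e.pg X.be X.ok.B X.ok.B X.ok1 o.ok, pg_W X.ok, pg_W X.ok', (X.ok.mix _ w.ht).D]
  simp only [ridx_apply, ContinuousLinearMap.finsetSum_comp, ContinuousLinearMap.smul_comp, map_sum,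
    map_smul, ← Finset.sum_add_distrib, ← smul_add, ← add_assoc, Matrix.of_apply,
    ContinuousLinearMap.id_apply, PiLp.add_apply]

theorem coc {t' : T'} {t : T} (ht' : t' ∈ 𝔉'.Q) (ht : t ∈ 𝔉.Q)
    (ag : Agr (𝔉'.G t') (𝔉.G t) 𝔉'.Om) (hx : x ∈ 𝔉'.Om) : Matrix.of (𝔉.S t x) =
      Matrix.of (𝔉'.S t' x) * Matrix.of (𝔉'.Si y'.t x) * Matrix.of (𝔉.S y.t x) := funext fun a => by
  refine co_eq (F := 𝔉.F0) (x := x) ?_ (fun b => X.ok.P0 ▸ X.ok.SP t ht x a b) fun b => ?_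
  · refine (X.ok.mix t ht a x).symm.trans ((ag.e x hx a).trans ((X.ok'.mix t' ht' a x).trans ?_))
    simp only [Map77.mix_inv X.ok' y'.ht _ x, ← X.agr.e x hx, X.ok.mix _ y.ht _ x, Finset.smul_sum,
      smul_smul, Matrix.mul_apply, Matrix.of_apply, Finset.sum_mul, Finset.sum_smul, mul_assoc]
    rw [Finset.sum_comm, Finset.sum_congr rfl fun _ _ => Finset.sum_comm, Finset.sum_comm]
  · simp only [Matrix.mul_apply (N := Matrix.of (𝔉.S y.t x)), Finset.sum_mul, mul_assoc]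
    rw [Finset.sum_comm]
    simp only [← Finset.mul_sum, Matrix.of_apply, X.ok.P0, X.ok.SP _ y.ht]

theorem par {w' : Pnt o' r} {w : Pnt o r} (ag : Agr (𝔉'.G w'.t) (𝔉.G w.t) 𝔉'.Om)
    (e : ∀ x ∈ 𝔉'.Om, o.b w.t x + w.α x = o.b y.t x + y.α x +
      mA y' y u x (o'.b w'.t x + w'.α x - (o'.b y'.t x + y'.α x))) :
    Par (𝔉.G w.t).F (o'.W w'.t w'.α) (o.W w.t w.α) 𝔉'.Om id (fun x b a => 𝔉.B.P b a x) u := by
  have O := X.ok'.Om.2
  have C : ∀ w : Pnt o r, ConnOn 𝔉.B (𝔉.G w.t) o.m (o.W w.t w.α) 𝔉'.Om := fun w =>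
    IsConn.on (w.ad0 X.ok).conn 𝔉'.Om
  refine (par0_iff ((C w).proj' X.ok.B)).1 fun x hx a => ?_
  have k := End3.cov_g (X.ok.G _ w.ht).P O (OK.on X.ok1 _) (OK.on o.ok _)
    (.of_mEq O X.e.m (OK.on X.ok1 _) (OK.on o.ok _))
    (W := o'.W w'.t w'.α) (Kit16.connOn_agr ag (X.B ▸ IsConn.on (w'.ad0 X.ok').conn _)) (C w) hx
    fun _ => rfl
  have h0 := fun a => (X.df hx y' y a).symm.trans (c := 0) (by
    rw [(par0_iff (W := o'.W y'.t y'.α) ((C y).proj' X.ok.B)).2 X.e.W x hx a,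
      ContinuousLinearMap.zero_comp, map_zero, map_zero])
  have h1 := X.df hx w' w a
  rw [e x hx, ← add_assoc, mA, indicator_of_mem hx, alg (P := .of fun a b => 𝔉.B.P a b x)
    (Si0 := .of (𝔉.Si y.t x))
    (X.coc w'.ht w.ht ag hx) (Matrix.ext (X.ok.SSi _ y.ht x))
    (Matrix.ext (X.B ▸ X.ok'.PS _ y'.ht x)) (Matrix.ext (X.B ▸ X.ok'.SiS _ y'.ht x))
    (Matrix.ext (X.B ▸ X.ok'.SP _ w'.ht x)) (PiLp.ext fun a => sub_eq_zero.1 (h0 a)), add_assoc,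
    add_sub_cancel, sub_self] at h1
  have h2 := k.2.2 a
  rwa [← pg_of_mem (k.1 a), map_neg, map_neg, h1, neg_zero, map_zero, add_zero] at h2

end Tw

variable (k) in
/-- the linear part of the change of chart -/
structure Act (Λ : o'.C r k →L[ℝ] o.C r k) : Prop where
  α : ∀ v x, 𝔉.F0.val _ _ (Λ v).1 x = mA y' y u x (𝔉'.F0.val _ _ v.1 x) + nB y' y u θ v.2.2.2 x
  φ : ∀ v x, 𝔉.F0.val _ _ (Λ v).2.1 x = mS u ζ x (𝔉'.F0.val _ _ v.2.1 x)
  z : ∀ v, (Λ v).2.2 = (((ζ : ℂ) ^ 2) • v.2.2.1, θ v.2.2.2)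

namespace Tw
variable {y' y u ζ θ} (X : Tw y' y u ζ) (mv : ∀ τ, nB y' y u θ τ ∈ Hs 𝔉.F0.toPre o.P1)
include X mv

theorem act [FiniteDimensional ℝ T'] (hk : 3 ≤ k) : ∃ Λ, Act k y' y u ζ θ Λ := by
  have h4 : 4 ≤ k + 1 := by omega
  let L : T' →ₗ[ℝ] 𝔉.F0.H (k + 1) o.P1 := ⟨⟨fun t => ofV _ _ _ (nB y' y u θ t), fun s t =>
    ofV_eq X.ok.sup h4 (by rw [val_add, val_ofV (mv s) h4, val_ofV (mv t) h4, map_add])⟩, fun c t =>
    ofV_eq X.ok.sup h4 (by rw [val_smul, val_ofV (mv t) h4, map_smul]; rfl)⟩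
  refine ⟨(tp _ _ _ X.cmp (mA y' y u) ∘L .fst ℝ _ _ + L.toContinuousLinearMap ∘L .snd ℝ _ _ ∘L
    .snd ℝ _ _ ∘L .snd ℝ _ _).prod (((tp _ _ _ X.cmp (mS u ζ)).prodMap ((sqL _ ζ).prodMap θ)) ∘L
      .snd ℝ _ _), fun v x => ?_, fun v x => val_tp X.cmp X.ok.sup X.ok'.sup h4 X.cS X.mpP _ x,
    fun v => rfl⟩
  exact (congrFun (val_add _ _) x).trans (congrArg₂ (· + ·)
    (val_tp X.cmp X.ok.sup X.ok'.sup h4 X.cA X.mpA _ x) (congrFun (val_ofV (mv _) h4) x))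

/-- **the change of chart on smooth points** -/
theorem pnt (hk : 3 ≤ k) {Λ : o'.C r k →L[ℝ] o.C r k} (a : Act k y' y u ζ θ Λ) (w' : Pnt o' r)
    (ht : y.t + θ (w'.t - y'.t) ∈ 𝔉.Q)
    (ag : Agr (𝔉'.G w'.t) (𝔉.G (y.t + θ (w'.t - y'.t))) 𝔉'.Om) :
    ∃ w : Pnt o r, w.t = y.t + θ (w'.t - y'.t) ∧ w.pt k = y.pt k + Λ (w'.pt k - y'.pt k) ∧
      EqOn 𝔉.B (𝔉.G w.t).F 𝔉'.Om w'.cfg w.cfg u ζ ∧ ∀ x ∉ 𝔉'.Om, w.cfg.Φ x = y.cfg.Φ x := by
  let w : Pnt o r := ⟨_, _, ((ζ : ℂ) ^ 2) • w'.z, _, add_mem y.hα (add_mem (hs_tp X.cmp X.ok.sup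
    X.ok'.sup X.cA X.mpA (sub_mem w'.hα y'.hα)) (mv (w'.t - y'.t))), add_mem y.hφ
    (hs_tp X.cmp X.ok.sup X.ok'.sup X.cS X.mpP (sub_mem w'.hφ y'.hφ)), ht⟩
  refine ⟨w, rfl, C_ext X.ok hk ?_ ?_ ?_, ⟨X.e.m, X.par (w := w) ag fun x hx => ?_,
    fun x hx => ?_, rfl⟩, fun x hx => ?_⟩
  · rw [Pnt.val_α _ hk, Prod.fst_add, val_add, y.val_α hk]
    refine congrArg (y.α + ·) (funext fun x => ?_)
    rw [a.α, Prod.fst_sub, val_sub, w'.val_α hk, y'.val_α hk]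
    rfl
  · rw [Pnt.val_φ _ hk, Prod.snd_add, Prod.fst_add, val_add, y.val_φ hk]
    refine congrArg (y.φ + ·) (funext fun x => ?_)
    rw [a.φ, Prod.snd_sub, Prod.fst_sub, val_sub, w'.val_φ hk, y'.val_φ hk]
  · rw [Prod.snd_add, Prod.snd_add, a.z]
    refine Prod.ext ?_ rfl
    show _ • w'.z = y.z + _ • (w'.z - y'.z)
    rw [show y.z = _ from X.e.z, ← smul_add]
    exact congrArg _ (add_sub_cancel _ _).symm
  · simp only [w, nB, LinearMap.coe_mk, AddHom.coe_mk, indicator_of_mem hx, map_add, map_sub,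
      Pi.add_apply, Pi.sub_apply]
    abel
  · have : o.Φ0 x + y.φ x = cs o.m.J ζ (u x (o'.Φ0 x + y'.φ x)) := X.e.Φ x hx
    show o.Φ0 x + (y.φ x + mS u ζ x (w'.φ x - y'.φ x)) = cs o.m.J ζ (u x (o'.Φ0 x + w'.φ x))
    rw [← add_assoc, this, mS, indicator_of_mem hx, ContinuousLinearMap.comp_apply, ← csL_apply,
      ← csL_apply, ← map_add, ← map_add, add_assoc, add_sub_cancel]
  · simp [Pnt.cfg, w, mS, hx]

end Tw

end Crest.Agent.X212.Nt93
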