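import Crest.Agent.X212.Nt93.MvD
import Crest.Agent.X212.Sym93.Main
import Crest.Agent.X212.Ncm43.Cmp

/-! Row 212, NT: the regularity of a sub-part seen in a chart of the larger part. -/

set_option autoImplicit false
set_option linter.unusedSectionVars false
noncomputable section
open scoped Manifold ContDiff Topology InnerProductSpace
open Set Function Filter

namespace Crest.Agent.X212.Nt93
open An M Nd18 Mod61 Nk89 Cht98 Rf65 Pte3 Eqv71 Wrd81 Sob92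
open An.Job (SolOn)
open Cnt93 (Rh rel_refl)
open ContinuousLinearMap (pi proj)

theorem fd_mem {X Y : Type} [NormedAddCommGroup X] [NormedSpace ℝ X] [NormedAddCommGroup Y]
    [NormedSpace ℝ Y] {N : Submodule ℝ Y} (hN : IsClosed (N : Set Y)) {g : X → Y}
    {g' : X →L[ℝ] Y} {c : X} (hg : HasFDerivAt g g' c) (h : ∀ᶠ v in 𝓝 c, g v ∈ N) (v : X) :
    g' v ∈ N := by
  refine hN.mem_of_tendsto (hg.hasLineDerivAt v).tendsto_slope_zero ?_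
  have : Tendsto (fun t : ℝ => c + t • v) (𝓝[≠] 0) (𝓝 c) :=
    (Continuous.tendsto' (by fun_prop) _ _ (by simp)).mono_left nhdsWithin_le_nhds
  filter_upwards [this.eventually h] with t ht using N.smul_mem _ (N.sub_mem ht h.self_of_nhds)

theorem fd_ob {C C' Y Y' Z : Type} [NormedAddCommGroup C] [NormedSpace ℝ C] [NormedAddCommGroup C']
    [NormedSpace ℝ C'] [NormedAddCommGroup Y] [NormedSpace ℝ Y] [NormedAddCommGroup Y']
    [NormedSpace ℝ Y'] [AddCommGroup Z] [Module ℝ Z] [TopologicalSpace Z] [T1Space Z] {f : C → Y}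
    {f' : C' → Y'} {L : C' →L[ℝ] C} {Ξ : Y' →L[ℝ] Y} {ob : Y →L[ℝ] Z} {c : C} {c' : C'}
    (d : DifferentiableAt ℝ f c) (d' : DifferentiableAt ℝ f' c')
    (k : ∀ᶠ v in 𝓝 c', ob (f (c + L (v - c'))) = ob (Ξ (f' v))) (v : C') :
    ob (fderiv ℝ f c (L v)) = ob (Ξ (fderiv ℝ f' c' v)) := by
  have hA : HasFDerivAt (fun v => c + L (v - c')) L c' := by
    simpa using (L.hasFDerivAt.comp c' ((hasFDerivAt_id c').sub_const c')).const_add c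
  have d1 : HasFDerivAt f (fderiv ℝ f c) (c + L (c' - c')) := by simpa using d.hasFDerivAt
  exact sub_eq_zero.1 ((map_sub _ _ _).symm.trans (fd_mem ob.isClosed_ker ((d1.comp c' hA).sub
    (Ξ.hasFDerivAt.comp c' d'.hasFDerivAt)) (k.mono fun v hv =>
      (map_sub ob _ _).trans (sub_eq_zero.2 hv)) v))

section ex
variable {α : Type} {s : Set α} (t : Set α) {V V' : α → Type} [∀ a, NormedAddCommGroup (V a)]
  [∀ a, NormedSpace ℝ (V a)] [∀ a, NormedAddCommGroup (V' a)] [∀ a, NormedSpace ℝ (V' a)]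
  (L : ∀ i : s, V' i →L[ℝ] V i)

open Classical in
/-- extension by zero -/
def exL : (∀ i : s, V' i) →L[ℝ] ∀ j : t, V j :=
  pi fun j => if k : j.1 ∈ s then L ⟨j, k⟩ ∘L proj (⟨j, k⟩ : s) else 0

variable {t} (v : ∀ i : s, V' i) {j : t}

theorem exL_in (k : j.1 ∈ s) : exL t L v j = L ⟨j, k⟩ (v ⟨j, k⟩) := by simp [exL, k]

theorem exL_out (k : j.1 ∉ s) : exL t L v j = 0 := by simp [exL, k]

variable (s t) in
/-- extension by zero -/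
def ex0 : (s → ℝ) →L[ℝ] t → ℝ := exL (V := fun _ => ℝ) (V' := fun _ => ℝ) t fun _ => .id ℝ ℝ

theorem ex0_in (v : s → ℝ) (k : j.1 ∈ s) : ex0 s t v j = v ⟨j, k⟩ :=
  exL_in (V := fun _ => ℝ) (V' := fun _ => ℝ) _ _ k

theorem ex0_out (v : s → ℝ) (k : j.1 ∉ s) : ex0 s t v j = 0 :=
  exL_out (V := fun _ => ℝ) (V' := fun _ => ℝ) _ _ k

end ex

section gen
variable {E : Type} [NormedAddCommGroup E] [NormedSpace ℝ E] [FiniteDimensional ℝ E]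
  [MeasurableSpace E] [BorelSpace E] {HM : Type} [TopologicalSpace HM]
  {I : ModelWithCorners ℝ E HM} [I.Boundaryless] {M : Type} [TopologicalSpace M]
  [ChartedSpace HM M] [IsManifold I ∞ M] [MeasurableSpace M] [T2Space M] [BorelSpace M]
  [SecondCountableTopology M] {ι lam : Type} [Fintype ι] [Fintype lam] {B : Base M ι lam}

theorem ridx_sq {T V : Type} [NormedAddCommGroup T] [NormedSpace ℝ T] [NormedAddCommGroup V]
    [InnerProductSpace ℝ V] {𝔉 : Fam I M ι lam T} {o : Ref 𝔉} (hB : 𝔉.B.OK I) (L : o.m.A →L[ℝ] V)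
    {x : M} {η : Fm (ι × ι) o.m.A} (h : o.P2 x η = η) (s : ι × ι) :
    ridx (sq2 fun b a => 𝔉.B.P b a x) L η s = L (η s) := by
  have p := idx_sum h
  simp only [ridx_apply, ← map_smul, ← map_sum]
  refine congrArg _ (.trans (Finset.sum_congr rfl fun j _ => congrArg _ (p j).symm) ?_)
  simp only [Finset.smul_sum, smul_smul]
  rw [Finset.sum_comm, ← p s]
  simp only [← Finset.sum_smul, P2_sd hB]

theorem Rh_surj {G G' : Geo I M ι lam} {O U v} {m m' : Md M ι lam} {W : m.Cn} {W' : m'.Cn} {u} {k : Cut M lam}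
    (g : LM B G B G' O id U v W W' u) (R : k.Rel k O id v) (η : Circle) :
    Surjective (Rh k k B B u η) := fun a => by
  have h := Cnt93.hi_Rh g R η
  have h' : Cnt93.HI m'.J (m'.pp B k.x0) m.J (m.pp B k.x0) (trn (csE m'.J η ∘L u k.x0)) :=
    ⟨h.tJ, h.tp, by rw [trn_trn]; exact h.hJ, by rw [trn_trn]; exact h.hp⟩
  refine ⟨Cnt93.Uh _ _ m.J (m.pp B k.x0) (trn (csE m'.J η ∘L u k.x0)) a,
    Subtype.ext ((h.coe _).trans ?_)⟩
  rw [h'.coe, Cnt93.LU_LU]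
  exact (congrArg (fun T => Cnt93.LU T _) ((g.phase η).me _ (Cnt93.γ_mem R 0 0)).uu').trans
    (Cnt93.mem_p g.ok' a)

end gen

variable {Wi : Type} {X : Mf 4} {A κ lam : Type} [Fintype A] [Fintype κ] [Fintype lam]
  [DecidableEq lam] {M : Mark X A κ} {W : World M} {N : ML M lam} {Λ : Lns W N}
  {A' h : Type} [Fintype A'] [DecidableEq A'] [Fintype h] {r n : ℕ}
  {J : Job Wi Λ A' h r n} {c : M.Cl} {σ : Cel A'} {p p' : Prt A A' h} {U U' : Type} [Fintype U]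
  [Fintype U'] {δ : ℝ} {b b' : Bp J c} {E : EC b p U δ} {E' : EC b' p' U' δ} {q : Wi →₀ ℝ}
  {y : J.Obc c} {x : Pnt E.o r} {ψ : E.K} {x' : Pnt E'.o r} {ψ' : E'.K}

variable (E p') in
/-- the rows seen by the sub-part -/
def ob : E.Y →L[ℝ] ((W.un c p'.P → E.o.m.V × Fm (Option κ × Option κ) E.o.m.A) ×
    (Fin n → ℂ) × (Fin (min r 1) → ℝ)) × ∀ i : {i : p.H // i.1 ∈ p'.H},
      (J.cut c i.1).H (J.B c) E.o.m × ℝ :=
  ((pi fun z => ((b.F p U δ).F0.ev 8 E.o.Pm z.1 ∘L .fst ℝ _ _).prod ((b.F p U δ).F0.ev 8 E.o.P2 z.1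
    ∘L .fst ℝ _ _ ∘L .snd ℝ _ _)).prod (.snd ℝ _ _ ∘L .snd ℝ _ _)).prodMap
      (pi fun i => (proj i.1).prodMap (proj i.1))

theorem ob_iff {e e' : E.Y} : ob p' E e = ob p' E e' ↔ ((∀ z ∈ W.un c p'.P,
    (b.F p U δ).F0.val 8 _ e.1.1 z = (b.F p U δ).F0.val 8 _ e'.1.1 z ∧
    (b.F p U δ).F0.val 8 _ e.1.2.1 z = (b.F p U δ).F0.val 8 _ e'.1.2.1 z) ∧ e.1.2.2 = e'.1.2.2) ∧
    ∀ i : p.H, i.1 ∈ p'.H → e.2.1 i = e'.2.1 i ∧ e.2.2 i = e'.2.2 i := by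
  simp only [Prod.ext_iff (x := ob p' E e), Prod.ext_iff (x := (ob p' E e).1), funext_iff,
    Subtype.forall (p := (· ∈ W.un c p'.P)), Subtype.forall (p := fun i : p.H => i.1 ∈ p'.H)]
  exact and_congr (and_congr (forall₂_congr fun _ _ => Prod.ext_iff) .rfl)
    (forall₂_congr fun _ _ => Prod.ext_iff)

variable (E E' q y x ψ x' ψ') in
/-- a sub-part -/
structure Sb : Prop where
  H : CS σ E
  H' : CS σ E'
  S : SolOn p' σ q y
  R : E.RepC y x ψ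
  R' : E'.RepC y x' ψ'
  P : p'.P ⊆ p.P
  P' : p'.P ⊆ p.P'
  e : p'.P ⊆ p'.P'
  V : p'.V ⊆ p.V
  K : p'.H ⊆ p.H

namespace Sb
variable (Z : Sb (σ := σ) E E' q y x ψ x' ψ')
include Z

theorem kt {s s' : A' → ℝ} (a : J.Ov σ c s) (a' : J.Ov σ c s') (e : ∀ a ∈ p'.V, s a = s' a) :
    LG (J.B c) (J.G c s) (J.B c) (J.G c s') (W.un c p'.P) id (fun x b a => (J.B c).P b a x)
      (J.B c).l := (Z.H'.pok.kt2 Z.H'.ok Z.H'.mem a a' e).toLG

theorem s0 : ∀ a ∈ p'.V, b'.θ p' U' x'.t a = b.θ p U x.t a := fun a k =>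
  (θ_eq Z.R'.s a k).symm.trans (θ_eq Z.R.s a (Z.V k))

theorem off {z} (hz : z ∉ W.un c p'.P) : x.cfg.Φ z = 0 := by
  obtain ⟨u, ζ, e, -⟩ := Z.R.e
  by_cases k : z ∈ W.un c p.P
  · rw [show x.cfg.Φ z = _ from e.Φ z k, Z.S.off z fun k => hz (un_sub Z.H'.pok k), map_zero,
      ← csL_apply, map_zero]
  · exact x.off Z.H.F z fun k' => k (un_sub Z.H.pok k')

theorem tw : ∃ u ζ, Tw x' x u ζ ∧ ∀ i : p'.H,
    (J.cut c i).Eqv (J.cut c i) (J.B c) (J.B c) u (ψ' i) (ψ ⟨i, Z.K i.2⟩) := by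
  obtain ⟨u, ζ, e, f⟩ := Z.R.e
  obtain ⟨u', ζ', e', f'⟩ := Z.R'.e
  have s : ∀ a ∈ p'.V, y.s a = b.θ p U x.t a := fun a k => θ_eq Z.R.s a (Z.V k)
  have sb : W.un c p'.P ⊆ W.un c p.P := biUnion_subset_biUnion_left Z.P
  have k := Z.H'.cr Z.S Z.R'.s e'
  have g := Z.kt Z.S.ov (Z.H'.ovx x') (θ_eq Z.R'.s)
  have ag := Z.H'.pok.agr Z.H'.ok Z.H'.mem (Z.H'.ovx x') (Z.H.ovx x) Z.s0
  have e1 := ceq_on (ceq_mono e sb) (Z.H'.pok.agr Z.H'.ok Z.H'.mem Z.S.ov (Z.H.ovx x) s).e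
  refine ⟨_, _, ⟨Z.H'.F, Z.H.F, rfl, (Ncm43.cmp Z.H.ok δ).1 _ _ _ _ _ _, sb,
    biUnion_subset_biUnion_left (Z.H'.pok.sub.trans Z.P'), ag, ceq_on (Sym93.tr2
      (Z.kt (Z.H'.ovx x') Z.S.ov fun a k => (θ_eq Z.R'.s a k).symm) (Z.kt Z.S.ov (Z.H.ovx x) s)
      k.adm' k.adm (x.ad0 Z.H.F) (ceq_symm2 g Z.H'.cl.2 k.adm k.adm' k.e) e1)
      fun z hz a => (ag.e z hz a).symm⟩, fun i => ?_⟩
  exact Cnt93.eqv_trans (φ := id) rfl (e1.m.J _ (Z.H'.cut_sub i ⟨(0, 0), rfl⟩)) E.o.ok.Jsq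
    (Cnt93.eqv_symm (ψ := id) (g.of_ceq k.adm k.adm' k.e) (rel_refl g.hB (Z.H'.cut_sub i)) rfl
      (f' i)) (f ⟨i, Z.K i.2⟩)

section nat
variable {w : Pnt E.o r} {w' : Pnt E'.o r} {u : (W.Z c).M → CL E'.o.m.V E.o.m.V} {ζ : Circle}
  (s : ∀ a ∈ p'.V, b'.θ p' U' w'.t a = b.θ p U w.t a)
  (e : Mod61.EqOn (J.B c) (J.G c (b.θ p U w.t)).F (W.un c p'.P) w'.cfg w.cfg u ζ)
  (z0 : ∀ z ∉ W.un c p'.P, w.cfg.Φ z = 0)
include s e z0

theorem cr : CR0 (J.B c) (J.G c (b'.θ p' U' w'.t)) (J.B c) (J.G c (b.θ p U w.t)) (W.un c p'.P)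
    (W.un c p'.P) id (fun z a i => (J.B c).P a i z) (J.B c).l w'.cfg w.cfg u ζ :=
  ⟨w'.ad0 Z.H'.F, w.ad0 Z.H.F, fun z hz => w'.off Z.H'.F z fun k => hz (un_sub Z.H'.pok k), z0,
    ceq_on e (Z.H'.pok.agr Z.H'.ok Z.H'.mem (Z.H'.ovx w') (Z.H.ovx w) s).e⟩

theorem natE {v : E.o.Y n (min r 1) 8} {v' : E'.o.Y n (min r 1) 8}
    (a : RepE (EC.tot b p U δ q) w v) (a' : RepE (EC.tot b' p' U' δ q) w' v') :
    (∀ z ∈ W.un c p'.P, (b.F p U δ).F0.val 8 _ v.1 z =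
      cs E.o.m.J ζ (u z ((b'.F p' U' δ).F0.val 8 _ v'.1 z)) ∧ ∀ i, (b.F p U δ).F0.val 8 _ v.2.1 z i =
      cj (u z) ((b'.F p' U' δ).F0.val 8 _ v'.2.1 z i)) ∧ v.2.2 = (sqL _ ζ v'.2.2.1, v'.2.2.2) := by
  have g := Z.kt (Z.H'.ovx w') (Z.H.ovx w) s
  have t := Z.H'.pok.t_rel Z.H'.ok Z.H'.mem (Z.H'.ovx w') (Z.H.ovx w) s q
  have k := Z.cr s e z0
  obtain ⟨h1, h2, h3, h4⟩ := tot_ev (b := b) (U := U) (δ := δ) (t := w.t) (q := q) w.cfg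
  obtain ⟨k1, k2, k3, k4⟩ := tot_ev (b := b') (U := U') (δ := δ) (t := w'.t) (q := q) w'.cfg
  refine ⟨fun z hz => ⟨?_, fun i => ?_⟩, Prod.ext (funext fun i => ?_) ?_⟩
  · exact ((congrFun a.D z).trans ((indicator_of_mem (biUnion_subset_biUnion_left Z.P' hz) _).trans
      (h1 z))).trans ((t.eD g k hz).trans (congrArg (fun v => cs _ _ (u z v)) ((congrFun a'.D z).trans
        ((indicator_of_mem (biUnion_subset_biUnion_left Z.e hz) _).trans (k1 z))).symm))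
  · have := ((congrFun a.C z).trans ((indicator_of_mem (biUnion_subset_biUnion_left Z.P hz) _).trans
      (h2 z))).trans ((t.eC g k hz).trans (congrArg _ ((congrFun a'.C z).trans
        ((indicator_of_mem hz _).trans (k2 z))).symm))
    exact (congrArg (· i) this).trans (ridx_sq g.hB _ (val_proj Z.H'.F.sup (by norm_num) _ z) i)
  · rw [a.S, h3, t.S k, ← mul_neg, ← k3, ← a'.S]
    rfl
  · exact (a.R.trans h4).trans ((funext fun _ => congrArg (fun v => v ^ 2 - 1)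
      (ceq_norm_z e)).trans (a'.R.trans k4).symm)

theorem natK (i : p'.H) (η : Circle) (a) : E.row q w ⟨i, Z.K i.2⟩ (Rh _ _ _ _ u η a) =
    Rh _ _ _ _ u η (E'.row q w' i a) ∧ ‖Rh _ (J.cut c i) _ (J.B c) u η a‖ = ‖a‖ := by
  have k := Z.cr s e z0
  have l := (Z.kt (Z.H'.ovx w') (Z.H.ovx w) s).of_ceq k.adm k.adm' k.e
  have R := rel_refl l.hB (Z.H'.cut_sub i)
  exact ⟨(congrArg₂ (· - ·) (Cnt93.T_nat l R η (Z.H'.cut_ok Z.H'.hb w'.ht i)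
    (Z.H.cut_ok Z.H.hb w.ht ⟨i, Z.K i.2⟩) a) (Z.H'.pok.sc_rel Z.H'.ok Z.H'.mem (Z.H'.ovx w')
      (Z.H.ovx w) s i.2 q k η a)).trans (map_sub _ _ _).symm, Cnt93.norm_Rh l R η a⟩

end nat

variable (l : (U' → ℝ) →L[ℝ] (U → ℝ)) {t : Tq p' U'}

variable (p p') in
omit Z in
/-- the map of the parameters -/
def θL : Tq p' U' →L[ℝ] Tq p U := (ex0 p'.V p.V).prodMap l

theorem θ_in : ∀ a ∈ p'.V, b'.θ p' U' t a = b.θ p U (x.t + θL p p' l (t - x'.t)) a := fun a k => by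
  rw [θ_V k, θ_V (Z.V k)]
  refine .symm ((congrArg₂ (· + ·) (Z.R.s _) (ex0_in _ k)).trans ?_)
  simp [Z.R'.s]

theorem θ_Q (ht : t ∈ (b'.F p' U' δ).Q) : x.t + θL p p' l (t - x'.t) ∈ (b.F p U δ).Q :=
  (Z.H.mem_iff Z.H.hb).2 fun a k ha => by
    by_cases k' : a ∈ p'.V
    · exact (Z.θ_in l a k').symm.trans_lt ((Z.H'.mem_iff Z.H'.hb).1 ht a k' ha)
    · have := (Z.H.mem_iff Z.H.hb).1 x.ht a k ha
      rw [θ_V k] at this ⊢
      exact ((congrArg (x.t.1 ⟨a, k⟩ + ·) (ex0_out _ k')).trans (add_zero _)).trans_lt this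

section key
variable {u : (W.Z c).M → CL E'.o.m.V E.o.m.V} {ζ : Circle} (T : Tw x' x u ζ) (η : p'.H → Circle)

variable (E E' u) in
omit Z in
/-- the transfer of the fields of the cuts -/
def ΨK : E'.K →L[ℝ] E.K := exL (V := fun i => (J.cut c i).H (J.B c) E.o.m)
  (V' := fun i => (J.cut c i).H (J.B c) E'.o.m) p.H fun i => Rh _ _ _ _ u (η i)

omit Z in
theorem ΨK_in (v : E'.K) {i : p.H} (k : i.1 ∈ p'.H) :
    ΨK E E' u η v i = Rh _ _ _ _ u (η ⟨i, k⟩) (v ⟨i, k⟩) :=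
  exL_in (V := fun i => (J.cut c i).H (J.B c) E.o.m)
    (V' := fun i => (J.cut c i).H (J.B c) E'.o.m) _ _ k

omit Z in
theorem ΨK_out (v : E'.K) {i : p.H} (k : i.1 ∉ p'.H) : ΨK E E' u η v i = 0 :=
  exL_out (V := fun i => (J.cut c i).H (J.B c) E.o.m)
    (V' := fun i => (J.cut c i).H (J.B c) E'.o.m) _ _ k

omit Z in
/-- the transfer of the targets -/
def Ξ : E'.Y →L[ℝ] E.Y := ((T.ΨD 8).prodMap ((T.ΨC 8).prodMap ((sqL _ ζ).prodMap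
  (.id ℝ _)))).prodMap ((ΨK E E' u η).prodMap (ex0 p'.H p.H))

omit Z in
theorem Ξ_apply (e : E'.Y) : Ξ T η e = ((T.ΨD 8 e.1.1, T.ΨC 8 e.1.2.1, (ζ : ℂ) ^ 2 • e.1.2.2.1,
  e.1.2.2.2), ΨK E E' u η e.2.1, ex0 p'.H p.H e.2.2) := rfl

end key

end Sb

end Crest.Agent.X212.Nt93
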