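import Crest.Agent.X212.Nt93.MvB
import Crest.Agent.X212.Nt93.Job

/-! Row 212, **NT-MV**. -/

set_option autoImplicit false
set_option linter.unusedSectionVars false
noncomputable section
open scoped Manifold ContDiff
open Set Function

namespace Crest.Agent.X212.Nt93
open An M Nd18 Mod61 Nk89 Cht98 Rf65 Pte3 Sym93

variable {Wi : Type} {X : Mf 4} {A κ lam : Type} [Fintype A] [Fintype κ] [Fintype lam]
  [DecidableEq lam] {M : Mark X A κ} {W : World M} {N : ML M lam} {Λ : Lns W N}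
  {A' h : Type} [Fintype A'] [DecidableEq A'] [Fintype h] {r n : ℕ}
  {J : Job Wi Λ A' h r n} {c : M.Cl} {σ : Cel A'} {p p' : Prt A A' h} {U U' : Type} [Fintype U]
  [Fintype U'] {δ L : ℝ} {b b' : Bp J c} {E : EC b p U δ} (E' : EC b' p' U' δ) (H : CS σ E)
  {i : Ed c}
include H

theorem same (i : Ed c) : Wrd81.SameN (en E i).K (en E' i).K :=
  H.ok.end_eq ⟨i.1.2.2, b.br, b.O, i.1.2.1⟩ ⟨i.1.2.2, b'.br, b'.O, i.1.2.1⟩

theorem U_same {z : (W.Z c).M} (hz : z ∈ (en E i).U L) : z ∈ (en E' i).U L :=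
  ⟨(same E' H i).tgt.ge hz.1, hz.2.trans_eq (congrArg _ ((same E' H i).tm hz.1).symm)⟩

theorem mov' (hi : i ∈ EdP c p.P) {lm : Tq p U →ₗ[ℝ] ℝ} (e : ∀ t, E.lm i t = lm t) :
    ∀ t ∈ (b.F p U δ).Q, Mod61.EqOn (en E i).D.B (en E i).D.Z univ
      (cy (Rdc90.bh (E.β i) (lm t • E.η i) 0)) (cy ((en E i).sl E.o (E.R + 1) t)) (E.v i) 1 :=
  fun t ht => by
    have := H.eo.mov i hi t ht
    unfold EC.lim at this
    rwa [e] at this

theorem b_none (hi : i ∈ EdP c p.P) (k : E.μ i = none) (x : Pnt E.o r) (τ : Tq p U)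
    {z : (W.Z c).M} (hz : z ∈ (en E i).U E.R) : E.o.b τ z = 0 := by
  obtain ⟨w, hw, e⟩ := (H.ee.okP i).exists_ψ hz
  exact e ▸ PiLp.ext fun a => (b_mov H.F (H.ee.okP i) H.eo.R5 (H.eo.lit i) x.ht 0
    (mov' H hi fun t => by simp [EC.lm, k]) τ hw a).trans (zero_smul ℝ _)

theorem b_some (hi : i ∈ EdP c p.P) {w : U} (k : E.μ i = some w) (x : Pnt E.o r) {ν ρ}
    (S : Psc (J.xs i.1).D.F (fun _ : Fin 1 => ν) ρ) : ∃ f : _ → E.o.m.A,
    (∀ t ∈ (b.F p U δ).Q, ParY (J.xs i.1).D ((en E i).sl E.o (E.R + 1) t) f) ∧ f ≠ 0 ∧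
      ∀ τ, ∀ z ∈ (en E i).H E.R, ∀ a,
        E.o.b τ ((en E i).K.ψ z) a = τ.2 w • (a.elim 0 fun k => ν k z.1) • f z.1 :=
  have a := H.eo.har i hi (k ▸ Option.some_ne_none w)
  mov_ex H.F (H.ee.okP i) H.eo.R5 (H.eo.lit i) x.ht
    (LinearMap.proj (R := ℝ) (φ := fun _ : U => ℝ) w ∘ₗ .snd ℝ _ _)
    (mov' H hi fun t => by simp [EC.lm, k]) S a.1 a.2.1 a.2.2

theorem psc (pj : PJ J c) (hi : i ∈ EdP c p.P) (k : E.μ i ≠ none) :
    ∃ ν ρ, Psc (J.xs i.1).D.F (fun _ : Fin 1 => ν) ρ := by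
  obtain ⟨h1, h2, h3⟩ := H.eo.har i hi k
  obtain ⟨_, py⟩ := pj.py i.1 i.1.2
  obtain ⟨ν, ρ, S⟩ := py.psc
  obtain rfl | rfl := Nat.le_one_iff_eq_zero_or_eq_one.1 py.b1
  · exact (h3 (funext₂ fun k y => ((har_dec S h1 h2).2 k y).trans (Fin.sum_univ_zero _))).elim
  · exact ⟨ν 0, ρ, (funext fun i => congrArg ν i.eq_zero : ν = fun _ => ν 0) ▸ S⟩

omit H in
variable (J c) in
/-- **NT-MV** -/
theorem mv : MvStmt J c := fun pj σ δ p p' U U' _ _ b b' E E' x x' u ζ H H' t hP one hi => by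
  have off : ∀ i ∉ EdP c p'.P, ∀ z ∈ (en E i).U 5, z ∉ (b'.F p' U' δ).Om := fun i k z hz e =>
    k ((H'.act_iff H'.eo.d0 H'.eo.d1).1 (End14.act_of H'.ee (U_same E' H hz) e))
  have sub : ∀ i ∈ EdP c p'.P, i ∈ EdP c p.P := fun _ ⟨π, k, e⟩ => ⟨π, hP k, e⟩
  refine (em (∃ i ∈ EdP c p'.P, E.μ i ≠ none)).elim (fun ⟨i, k, e⟩ => ?_) fun k =>
    ⟨0, fun θ _ τ => t.hs H.ee (L := max E.R E'.R)
      (.of_hcs contMDiff_const HasCompactSupport.zero) fun i z hz => ?_⟩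
  · obtain ⟨ν, ρ, S⟩ := psc H pj (sub i k) e
    obtain ⟨w, hw⟩ := Option.ne_none_iff_exists'.1 e
    obtain ⟨w', hw'⟩ := Option.ne_none_iff_exists'.1 (mt (hi i k).1.2 e)
    obtain ⟨f, f1, f2, f3⟩ := b_some H (sub i k) hw x S
    obtain ⟨g, g1, -, g3⟩ := b_some H' k hw' x' S
    have act := (H'.act_iff H'.eo.d0 H'.eo.d1 (b := b') (U := U')).2 k
    have := mv_one t H.ee H.lit (L := max E.R E'.R + 1) (by simp)
      ((H.act_iff H.eo.d0 H.eo.d1).2 (sub i k)) (hi i k).2 f1 f2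
      (n := fun a y => a.elim 0 fun k => ν k y)
      (fun | none => contMDiff_const | some k => S.sm 0 k) (H'.ee.cov' _)
      (pb_ex H'.ee H'.lit act x'.ht g1) (lm := fun τ => τ.2 w) (lm' := fun τ => τ.2 w')
      (fun z hz => ?_) fun a ne => off a fun k' => ne (one k' k)
    · exact this.elim fun s hs => ⟨.pi fun _ => s • .proj w', fun θ e τ => hs θ τ (by simp [e])⟩
    have h0 : E.R < (en E i).sg * z.2 :=
      lt_of_le_of_lt ((le_max_left _ _).trans (lt_add_one _).le) hz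
    have h1 : E'.R + 1 < (en E' i).sg * z.2 := lt_of_le_of_lt (by simp) hz
    have h2 : 5 < (en E' i).sg * z.2 := by linarith [H'.eo.R5]
    have h3 := (H'.ee.okP i).ψ_mem (z := z) le_rfl h2
    have h4 : (en E' i).K.ψ z = (en E i).K.ψ z := (same E' H i).ψ ((H.ee.okP i).src h2.le)
    refine ⟨h4 ▸ act h3, fun a b => h4 ▸ ((H'.ee.okP i).S _ x'.ht _ h3 a b).1, fun τ =>
      f3 τ z h0, fun τ a => h4 ▸ ?_⟩
    exact (g3 τ z ((lt_add_one _).trans h1) a).trans (congrArg (fun v => _ • _ • v)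
      (((ex_ψ ((H'.ee.okP i).src h2.le)).trans (congrArg (· • _) (hc_one h1.le))).trans
        (one_smul ℝ _)).symm)
  · by_cases e : i ∈ EdP c p'.P
    · have e1 : E.μ i = none := by_contra fun k' => k ⟨i, e, k'⟩
      have h1 := b_none H (sub i e) e1 x (θ τ) (End.U_mono _ (le_max_left _ _) hz)
      have h2 := b_none H' e ((hi i e).1.1 e1) x' τ
        (U_same E' H (End.U_mono _ (le_max_right _ _) hz))
      exact (congrArg₂ (· - ·) ((congrArg _ h2).trans (map_zero _))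
        (indicator_apply_eq_zero.2 fun _ => h1)).trans (sub_zero _)
    · exact nB_off (off i e z (End.U_mono _ (le_max_of_le_left H.eo.R5) hz))

omit H in
variable (J c δ) in
/-- **REG-TR** -/
theorem regTr' (sh : Set A') (σ : Cel A') (n₀ : ℤ) : RegTr J c δ sh σ n₀ := regTr (mv J c)

end Crest.Agent.X212.Nt93
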