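import Crest.Agent.X212.Nt93.MvD
import Crest.Agent.X212.Abx52.Ng1
import Crest.Agent.X212.Sym93.Trp

/-! Row 212, NT-MV: the moving parts of two references on one end. -/

set_option autoImplicit false
set_option linter.unusedSectionVars false
noncomputable section
open scoped Manifold ContDiff Topology InnerProductSpace
open MeasureTheory Set Function Filter

namespace Crest.Agent.X212.Nt93
open An An.Pre Sob92 Prm93 Mod61 Nd18 Eqv71 Nk89 Ker54 Cyf70 Sym93 Pj41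
open Grp76 (Nice hs_iff Pg_iff)
open Wz78 (nab SA adcL)
open Rf65 (ParY dz)
open Rdc90 (bh)
open End14 (hyp_top)

variable {E : Type} [NormedAddCommGroup E] [NormedSpace ℝ E] [FiniteDimensional ℝ E]
  [MeasurableSpace E] [BorelSpace E]
  {HM : Type} [TopologicalSpace HM] {I : ModelWithCorners ℝ E HM} [I.Boundaryless]
  {M : Type} [TopologicalSpace M] [ChartedSpace HM M] [IsManifold I ∞ M]
  [MeasurableSpace M] [T2Space M] [BorelSpace M] [SecondCountableTopology M]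
  {κ : Type} [Fintype κ] {lam : Type} [Fintype lam]
  {T T' : Type} [NormedAddCommGroup T] [NormedSpace ℝ T] [NormedAddCommGroup T'] [NormedSpace ℝ T']
  {𝔉 : Fam I M (Option κ) lam T} {𝔉' : Fam I M (Option κ) lam T'} {δ R L : ℝ} {o : Ref 𝔉}
  {o' : Ref 𝔉'} {r : ℕ} {K : Set M} {ξ ζ : M → o.m.A}

/-- the moving part on an end -/
theorem b_mov {P : End 𝔉} {ψ : M → ℝ} {R₀ : ℝ} (k : 𝔉.OK) (hP : P.OK ψ δ R₀) (hR : R₀ ≤ R)
    (hl : P.Lit o R) {t : T} (ht : t ∈ 𝔉.Q) {β : YC P.Y.M κ lam} {η : κ → P.Y.M → β.m.A}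
    {v : P.Y.M × ℝ → CL β.m.V o.m.V} (lm : T →ₗ[ℝ] ℝ) (mv : ∀ t ∈ 𝔉.Q, Mod61.EqOn P.D.B P.D.Z univ
      (cy (bh β (lm t • η) 0)) (cy (P.sl o (R + 1) t)) v 1) (τ : T) {z : P.Y.M × ℝ}
    (hz : z ∈ P.H R) (a : Option κ) :
    o.b τ (P.K.ψ z) a = lm τ • cj (v (z.1, 0)) (a.elim 0 fun k => η k z.1) := by
  have e : ∀ t ∈ 𝔉.Q, P.D.Z.D a v (z.1, 0) + (o.A0 a (P.K.ψ z) + opL (o.b t (P.K.ψ z) a)) ∘L
      v (z.1, 0) - v (z.1, 0) ∘L (β.W a z.1 + lm t • opL (a.elim 0 fun k => η k z.1)) = 0 :=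
    fun t ht => by
      have := (par0_iff ((IsConn.on (hl.adm k hP hR ht).adm.conn _).proj' hP.D.B)).2 (mv t ht).W
        (z.1, 0) trivial a
      refine Eq.trans (congrArg₂ (fun (w : CL o.m.V o.m.V) (w' : CL β.m.V β.m.V) =>
        P.D.Z.D a v (z.1, 0) + w ∘L v (z.1, 0) - v (z.1, 0) ∘L w') ?_ ?_) this
      · exact (End14.W0_end k hP ht (hP.ψ_mem le_rfl (hR.trans_lt hz)) a).symm.trans
          ((hl.at ht hz).2.2.2.1 a)
      · change _ = β.W a z.1 + opL (a.elim 0 fun k => lm t • η k z.1)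
        cases a <;> simp
  have h1 : ∀ᶠ s : ℝ in 𝓝[≠] 0, t + s • τ ∈ 𝔉.Q := nhdsWithin_le_nhds
    ((by fun_prop : Continuous fun s : ℝ => t + s • τ).continuousAt.eventually
      (k.opn.mem_nhds (by simpa using ht)))
  obtain ⟨s, h2, h3⟩ := (h1.and self_mem_nhdsWithin).exists
  have e1 : opL (o.b τ (P.K.ψ z) a) ∘L v (z.1, 0) =
      lm τ • v (z.1, 0) ∘L opL (a.elim 0 fun k => η k z.1) := by
    have := (e _ h2).trans (e _ ht).symm
    simp only [map_add, map_smul, Pi.add_apply, Pi.smul_apply, PiLp.add_apply, PiLp.smul_apply,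
      ContinuousLinearMap.add_comp, ContinuousLinearMap.comp_add, ContinuousLinearMap.smul_comp,
      ContinuousLinearMap.comp_smul, add_smul, smul_eq_mul, mul_smul] at this
    refine smul_right_injective _ h3 (sub_eq_zero.1 ?_)
    rw [← sub_eq_zero.2 this]
    abel
  have e2 : v (z.1, 0) ∘L trn (v (z.1, 0)) = o.m.p (P.K.ψ z) :=
    ((mv t ht).m.uu' (z.1, 0) trivial).trans (hl.at ht hz).1.symm
  refine Wz78.opL_inj ?_
  rw [← Wz78.g_p' o.ok (o.b_mem _ _ a), ← e2, ContinuousLinearMap.mul_def,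
    ← ContinuousLinearMap.comp_assoc, e1, map_smul, opL_cj, ContinuousLinearMap.smul_comp,
    ContinuousLinearMap.comp_assoc]

theorem pb_n0 (h : 𝔉.OK) (hK : IsCompact K) (a : Pb o K ξ) (y : Pnt o r) (b : Option κ) :
    Nice 𝔉.F0.toPre (n0 y ξ b) := by
  rw [show n0 y ξ b = fun x => nab I 𝔉.F0.e (o.m.adW (o.A y.t)) b ξ x +
    adcL (opL (Grp76.pj _ b (y.α x))) (ξ x) from funext fun x => by
      simp only [n0, nab, Md.adW, ← Wz78.adcL_apply, map_add, _root_.add_apply, add_assoc]; rfl]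
  exact (Nice.of_hcs (Cb.sm (Cb_add (Cb_D a.cb b) (Cb_app (Cb_clm adcL (o.cAt y.t b)) a.cb)))
    (.intro hK (a.par _ y.ht b))).add (((((hs_iff h).1 y.hα).1.clm _).clm (adcL ∘L opL)).bil'
      (.id ℝ _) a.cb)

namespace Tw
variable {y' : Pnt o' r} {y : Pnt o r} {u : M → CL o'.m.V o.m.V} {c : Circle} (X : Tw y' y u c)
  {g : M → o'.m.A} (hK : IsCompact K) (a : Pb o' K g)
include X a

theorem cb_g : 𝔉.F0.Cb fun x => cj (𝔉'.Om.indicator u x) (g x) :=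
  Cb_app (Cb_cj X.cu) (X.cmp.Cb_iff.1 a.cb)

theorem mem_g (x : M) : o.Pg x (cj (𝔉'.Om.indicator u x) (g x)) = cj (𝔉'.Om.indicator u x) (g x) := by
  have k := (Pg_iff X.ok' x _).1 (a.mem x)
  by_cases hx : x ∈ 𝔉'.Om
  · rw [indicator_of_mem hx]
    exact (Pg_iff X.ok x _).2 ⟨(X.me hx).cj_mem X.be X.ok1 o.ok k.1, fun e => (e (X.sub hx)).elim⟩
  · rw [k.2 hx, map_zero, map_zero]

theorem nab_g (b : Option κ) (x : M) : nab I (𝔉.G y.t).F.e (o.m.adW (o.W y.t y.α)) b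
    (fun x => cj (𝔉'.Om.indicator u x) (g x)) x = cj (𝔉'.Om.indicator u x)
      (nab I (𝔉'.G y'.t).F.e (o'.m.adW (o'.W y'.t y'.α)) b g x) := by
  by_cases hx : x ∈ 𝔉'.Om
  · have su : SA I u x := X.e.m.su.contMDiffAt (X.ok'.Om.2.mem_nhds hx)
    have i : Itw I (𝔉.G y.t).F.e (o'.W y'.t y'.α) (o.W y.t y.α) u x := fun b => sub_eq_zero.1
      ((par0_iff (W := o'.W y'.t y'.α) ((IsConn.on (y.ad0 X.ok).conn _).proj' X.ok.B)).2
        X.e.W x hx b)
    have k := (i.cj su (fun b => (y'.ad0 X.ok').conn.sk b x) fun b =>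
      (y.ad0 X.ok).conn.sk b x).nab (sa_cj su).md (SA.md (Cb.sm a.cb x)) b
    refine (Wz78.nab_congr (v := fun x => cj (u x) (g x)) b
      ((X.ok'.Om.2.eventually_mem hx).mono fun z hz => by
        beta_reduce; rw [indicator_of_mem hz])).trans (k.trans ?_)
    rw [indicator_of_mem hx, nab, nab, dv, dv, X.agr.e x hx b]
    rfl
  · refine (Wz78.nab_congr (v := fun _ => 0) b ((X.ok'.Om.compl.2.eventually_mem hx).mono
      fun z hz => by beta_reduce; rw [((Pg_iff X.ok' z _).1 (a.mem z)).2 hz, map_zero])).trans ?_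
    rw [indicator_of_notMem hx]
    simp [nab, cj_apply]

omit a in
theorem nice_tp {v : M → o'.m.A} (h : Nice 𝔉'.F0.toPre v) :
    Nice 𝔉.F0.toPre fun x => cj (𝔉'.Om.indicator u x) (v x) :=
  ((hs_iff X.ok (p := triv M _)).1 (hs_tp (p' := triv M _) X.cmp X.ok.sup X.ok'.sup (Cb_cj X.cu)
    (fun _ _ _ => rfl) ((hs_iff X.ok').2 ⟨h, fun _ => rfl⟩))).1

include hK in
theorem n0_g (b : Option κ) :
    Nice 𝔉.F0.toPre (n0 y (fun x => cj (𝔉'.Om.indicator u x) (g x)) b) := by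
  have n : ∀ b, Nice 𝔉'.F0.toPre (nab I (𝔉'.G y'.t).F.e (o'.m.adW (o'.W y'.t y'.α)) b g) :=
    fun b => by
      rw [show nab I _ _ b g = _ from funext fun x =>
        nab_W X.ok' ((Pg_iff X.ok' x _).1 (a.mem x)).1 b]
      exact Nice.sum _ fun l => (pb_n0 X.ok' hK a y' l).bil (ContinuousLinearMap.lsmul ℝ ℝ)
        ((X.ok'.sS b l).cb _ y'.ht)
  have k := Nice.sum Finset.univ fun l => (X.nice_tp (n l)).bil (ContinuousLinearMap.lsmul ℝ ℝ)
    ((X.ok.sSi b l).cb _ y.ht)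
  refine (congrArg _ (funext fun x => ?_)).mp k
  exact (Finset.sum_congr rfl fun l _ => congrArg _ (X.nab_g a l x).symm).trans
    (n0_eq X.ok (ξ := fun x => cj (𝔉'.Om.indicator u x) (g x))
      ((Pg_iff X.ok x _).1 (X.mem_g a x)).1 b).symm

end Tw

variable (X : Ends 𝔉 δ)

theorem cb_ex (hR : X.R ≤ R) {a : X.A} {V : Type} [NormedAddCommGroup V] [NormedSpace ℝ V]
    {f : (X.P a).Y.M → V} (hf : Sm (X.P a).Y.I f) : 𝔉.F0.Cb (ex (X.P a) R f) := by
  obtain ⟨C, hC⟩ := bd_hc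
  obtain ⟨C', hC'⟩ := Cb_smul ⟨_, (hC _ R (X.P a).sg_cases).cyl (X.P a).D.F.toPre⟩
    (cb_inv (X.P a).D.F.toPre (sm_fst hf))
  exact X.wt.toWtP.Cb.2 ⟨_, (Cht98.nck (X.P a).K).CBs_pull (S := {s | R ≤ (X.P a).sg * s})
    (isClosed_le continuous_const (by fun_prop)) (fun s hs => (X.okP a).J (hR.trans hs))
    (fun z hz => smul_eq_zero_of_left (hc_zero (not_le.1 hz).le) _) hC'⟩

variable (hl : X.Lit o R) (y : Pnt o r) (s : Sm I ζ) (p : ∀ a, Nice 𝔉.F0.toPre (n0 y ζ a))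
include hl s p

theorem nice_of (h0 : ∀ a z, Tendsto (fun n : ℕ => ζ ((X.P a).pt n z)) (hyperfilter ℕ) (𝓝 0)) :
    Nice 𝔉.F0.toPre ζ := by
  have H := X.ok
  have nb := fun a => (p a).sub ((Ng52.n_α X y a).bil' (.id ℝ _) (Ng52.cb X y s p))
  refine Grp76.nice_of_fl H.tame.choose_spec s (Grp76.fl_of_lin s
    (End14.hardy X hl.le s (nb none) (fun a x hx => ?_) fun a z ε hε => hyp_top.frequently
      (((h0 a z).norm.eventually (ge_mem_nhds (by simpa))).frequently))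
    (fun a => Cb_clm (-adcL) (o.cAt y.t a)) nb (Ng52.D_eq y))
  have h1 := End14.W0_end H (X.okP a) (o := o) y.ht (End.U_mono _ hl.le hx) none
  obtain ⟨s, z, hs, rfl⟩ := End14.exists_pt (X.okP a) hl.le hx
  rw [(End14.lit_eq (hl.lit a) y.ht hs z).2.2.2.1, (hl.lit a).tmp _ y.ht] at h1
  rw [Ng52.D_eq y, ← h1, map_zero, neg_zero, _root_.zero_apply, zero_add]
  rfl

/-- an asymptotically parallel section on one end with a one dimensional stabiliser -/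
theorem endM (m : ∀ x, ζ x ∈ o.m.gS x) {i : X.A} (ha : X.Act i)
    (hz : dz (X.P i).D ((X.P i).sl o (R + 1) y.t) = 1) {f : (X.P i).Y.M → o.m.A}
    (hf : ∀ t ∈ 𝔉.Q, ParY (X.P i).D ((X.P i).sl o (R + 1) t) f) (f0 : f ≠ 0)
    (off : ∀ a ≠ i, ∀ x ∈ (X.P a).U X.R, ζ x = 0) :
    ∃ c : ℝ, Nice 𝔉.F0.toPre (ζ - c • ex (X.P i) R f) := by
  have q := pb_ex X hl ha y.ht hf
  have sξ := Cb.sm q.cb
  obtain ⟨g, g1, g2⟩ := Ng52.lim X y s p hl m i
  obtain ⟨c, hc⟩ := ((finrank_eq_one_iff_of_nonzero' (⟨f, hf _ y.ht⟩ : Clr59.parS _ _) fun e =>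
    f0 (congrArg Subtype.val e)).1 (Clr59.dz_def.symm.trans hz) ⟨g, g1⟩).imp
    fun _ => congrArg Subtype.val
  replace hc : c • f = g := hc
  have sc : ∀ c : ℝ, Sm I (c • ex (X.P i) R f) := fun c x => SA.smul contMDiffAt_const (sξ x)
  refine ⟨c, nice_of X hl y (s.sub (sc c)) (fun a => ?_) fun a z => ?_⟩
  · rw [show n0 y (ζ - c • ex (X.P i) R f) a = fun x => n0 y ζ a x - c • n0 y (ex (X.P i) R f) a x
      from funext fun x => by
        rw [sub_eq_add_neg, ← neg_smul, n0_add (SA.md (s x)) (SA.md (sc _ x)),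
          n0_smul (SA.md (sξ x)), neg_smul, sub_eq_add_neg]]
    exact (p a).sub ((pb_n0 X.ok (X.cov' _) q y a).clm (c • .id ℝ _))
  rcases eq_or_ne a i with rfl | ne
  · refine (sub_self (g z) ▸ (g2 z).sub_const (g z)).congr' ((hyp_top.eventually_ge_atTop (R + 1)).mono fun n hn => ?_)
    have k : R + 1 ≤ (X.P a).sg * ((X.P a).sg * n) := by rwa [End.sg_sg]
    simp only [Pi.sub_apply, Pi.smul_apply, End.pt]
    rw [ex_ψ ((X.okP a).src (by linarith [hl.le])), End.θZ, hc_one k, one_smul, ← hc]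
    rfl
  · refine tendsto_const_nhds.congr' ((hyp_top.eventually_gt_atTop X.R).mono fun n hn => ?_)
    have k := End14.pt_U (X.okP a) le_rfl hn z
    simp only [Pi.sub_apply, Pi.smul_apply]
    rw [off a ne _ k, ex_off fun e => disjoint_left.1 (X.dis ne) k (End.U_mono _ hl.le e),
      smul_zero, sub_zero]

omit hl s p in
theorem Tw.hs {y : Pnt o r} {y' : Pnt o' r} {u : M → CL o'.m.V o.m.V} {c : Circle}
    (t : Tw y' y u c) {θ : T' →L[ℝ] T} {τ : T'} {w : M → Fm (Option κ) o.m.A}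
    (nw : Nice 𝔉.F0.toPre w) (e : ∀ a, ∀ x ∈ (X.P a).U L, nB y' y u θ τ x = w x) :
    nB y' y u θ τ ∈ Hs 𝔉.F0.toPre o.P1 := by
  have cb : 𝔉.F0.Cb (nB y' y u θ τ) := Cb_sub (Cb_app t.cA (t.cmp.Cb_iff.1 (o'.sb.cb τ trivial)))
    (Grp76.Cb_ind t.ok'.Om (o.sb.cb _ trivial))
  refine (hs_iff X.ok).2 ⟨?_, fun x => ?_⟩
  · simpa using (Nice.of_hcs ((Cb.sm cb).sub nw.sm) (.intro (X.cov' L) fun x hx =>
      let ⟨a, ha⟩ := mem_iUnion.1 (not_not.1 hx); sub_eq_zero.2 (e a x ha))).add nw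
  · refine (map_sub _ _ _).trans (congrArg₂ (· - ·) (t.mpA x _ (b_P1 τ x)) ?_)
    by_cases hx : x ∈ 𝔉'.Om <;> simp [hx, b_P1]

end Crest.Agent.X212.Nt93
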