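import Crest.Agent.X212.Nt93.MvA

/-! Row 212, NT-MV: one moving end. -/

set_option autoImplicit false
set_option linter.unusedSectionVars false
noncomputable section
open scoped Manifold ContDiff Topology InnerProductSpace
open MeasureTheory Set Function Filter

namespace Crest.Agent.X212.Nt93
open An An.Pre Sob92 Prm93 Mod61 Nd18 Eqv71 Nk89 Ker54 Cyf70 Sym93 Pj41 Clr59
open Grp76 (Nice hs_iff Pg_iff)
open Rf65 (ParY dz Psc)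
open Rdc90 (bh Bs Har)

variable {E : Type} [NormedAddCommGroup E] [NormedSpace ℝ E] [FiniteDimensional ℝ E]
  [MeasurableSpace E] [BorelSpace E]
  {HM : Type} [TopologicalSpace HM] {I : ModelWithCorners ℝ E HM} [I.Boundaryless]
  {M : Type} [TopologicalSpace M] [ChartedSpace HM M] [IsManifold I ∞ M]
  [MeasurableSpace M] [T2Space M] [BorelSpace M] [SecondCountableTopology M]
  {κ : Type} [Fintype κ] {lam : Type} [Fintype lam]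
  {T T' : Type} [NormedAddCommGroup T] [NormedSpace ℝ T] [NormedAddCommGroup T'] [NormedSpace ℝ T']
  {𝔉 : Fam I M (Option κ) lam T} {𝔉' : Fam I M (Option κ) lam T'} {δ R L : ℝ} {o : Ref 𝔉}
  {o' : Ref 𝔉'} {r : ℕ} {K : Set M}

theorem mov_ex {P : End 𝔉} {ψ : M → ℝ} {R₀ ρ : ℝ} (k : 𝔉.OK) (hP : P.OK ψ δ R₀) (hR : R₀ ≤ R)
    (hl : P.Lit o R) {t : T} (ht : t ∈ 𝔉.Q) {β : YC P.Y.M κ lam} {η : κ → P.Y.M → β.m.A}
    {v : P.Y.M × ℝ → CL β.m.V o.m.V} (lm : T →ₗ[ℝ] ℝ) (mv : ∀ t ∈ 𝔉.Q, Mod61.EqOn P.D.B P.D.Z univ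
      (cy (bh β (lm t • η) 0)) (cy (P.sl o (R + 1) t)) v 1) {ν : κ → P.Y.M → ℝ}
    (S : Psc P.D.F (fun _ : Fin 1 => ν) ρ) (H : Bs P.D β) (hh : Har P.D β η) (h0 : η ≠ 0) :
    ∃ f : P.Y.M → o.m.A, (∀ t ∈ 𝔉.Q, ParY P.D (P.sl o (R + 1) t) f) ∧ f ≠ 0 ∧
      ∀ τ, ∀ z ∈ P.H R, ∀ a,
      o.b τ (P.K.ψ z) a = lm τ • (a.elim 0 fun k => ν k z.1) • f z.1 := by
  obtain ⟨ξ, p, rfl⟩ := (har_iff S H).1 hh
  have a := fun t ht => par_tr H.ok (bs_tw S H p (lm t)).adm (hl.adm k hP hR ht) (mv t ht)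
    (par_tw p _)
  refine ⟨fun y => cj (v (y, 0)) (ξ y), fun t ht => (a t ht).1,
    fun z => h0 ((congrArg (tY ν) ((a t ht).2 z)).trans (map_zero _)), fun τ z hz b => ?_⟩
  rw [b_mov k hP hR hl ht lm mv τ hz b]
  cases b <;> simp [tY_apply]

variable {y' : Pnt o' r} {y : Pnt o r} {u : M → CL o'.m.V o.m.V} {c : Circle} (t : Tw y' y u c)
  {θ : T' →L[ℝ] T} {τ : T'} {x : M}
include t

omit t in
theorem nB_off (hx : x ∉ 𝔉'.Om) : nB y' y u θ τ x = 0 := by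
  simp [nB, hx, idx_off (b_P1 τ x) hx]

theorem nB_on (hx : x ∈ 𝔉'.Om) (h : ∀ a b, 𝔉.Si y.t x a b = 𝔉.B.P a b x)
    (h' : ∀ a b, 𝔉'.S y'.t x a b = 𝔉'.B.P a b x) (a : Option κ) :
    nB y' y u θ τ x a = cj (𝔉'.Om.indicator u x) (o'.b τ x a) - o.b (θ τ) x a := by
  rw [← o'.b_proj t.ok'.B τ x a]
  simp only [nB, LinearMap.coe_mk, AddHom.coe_mk, PiLp.sub_apply, indicator_of_mem hx, mA,
    ridx_apply, Matrix.mul_apply, Matrix.of_apply, h, h', t.B, (t.ok.B.pr x).idem, map_sum, map_smul]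

/-- **one moving end** -/
theorem mv_one (X : Ends 𝔉 δ) (hl : X.Lit o R) (hL : R + 1 ≤ L) {i : X.A} (ha : X.Act i)
    (hz : dz (X.P i).D ((X.P i).sl o (R + 1) y.t) = 1) {f : (X.P i).Y.M → o.m.A}
    (hf : ∀ t ∈ 𝔉.Q, ParY (X.P i).D ((X.P i).sl o (R + 1) t) f) (f0 : f ≠ 0)
    {n : Option κ → (X.P i).Y.M → ℝ} (sn : ∀ a, Sm (X.P i).Y.I (n a)) {g : M → o'.m.A}
    (hK : IsCompact K) (pg : Pb o' K g) {lm : T → ℝ} {lm' : T' → ℝ}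
    (hb : ∀ z ∈ (X.P i).H L, (X.P i).K.ψ z ∈ 𝔉'.Om ∧
      (∀ a b, 𝔉'.S y'.t ((X.P i).K.ψ z) a b = 𝔉'.B.P a b ((X.P i).K.ψ z)) ∧
      (∀ τ a, o.b τ ((X.P i).K.ψ z) a = lm τ • n a z.1 • f z.1) ∧
      ∀ τ a, o'.b τ ((X.P i).K.ψ z) a = lm' τ • n a z.1 • g ((X.P i).K.ψ z))
    (off : ∀ a ≠ i, ∀ x ∈ (X.P a).U X.R, x ∉ 𝔉'.Om) : ∃ s : ℝ, ∀ (θ : T' →L[ℝ] T) τ,
      lm (θ τ) = s * lm' τ → nB y' y u θ τ ∈ Hs 𝔉.F0.toPre o.P1 := by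
  have z0 : ∀ x ∉ 𝔉'.Om, cj (𝔉'.Om.indicator u x) (g x) = 0 := fun x hx => by
    rw [((Pg_iff t.ok' x _).1 (pg.mem x)).2 hx, map_zero]
  obtain ⟨s, hs⟩ := endM X hl y (Cb.sm (t.cb_g pg)) (t.n0_g hK pg)
    (fun x => ((Pg_iff t.ok x _).1 (t.mem_g pg x)).1) ha hz hf f0 fun a ne x hx => z0 x (off a ne x hx)
  have hR : X.R ≤ L := by linarith [hl.le]
  refine ⟨s, fun θ τ e => t.hs X (L := L) (w := fun x => WithLp.toLp 2 fun a => lm' τ •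
    ex (X.P i) R (n a) x • (cj (𝔉'.Om.indicator u x) (g x) - s • ex (X.P i) R f x))
    (Nice.fm fun a => (hs.bil (ContinuousLinearMap.lsmul ℝ ℝ) (cb_ex X hl.le (sn a))).clm
      (lm' τ • .id ℝ _)) fun a x hx => PiLp.ext fun b => ?_⟩
  rcases eq_or_ne a i with rfl | ne
  · obtain ⟨z, hz, rfl⟩ := (X.okP a).exists_ψ hx
    obtain ⟨h1, h2, h3, h4⟩ := hb z hz
    have k := (X.okP a).src (hR.trans hz.le)
    rw [nB_on t h1 (fun a' b => ((X.okP a).S _ y.ht _ (End.U_mono _ hR hx) a' b).2) h2, h3, h4, e]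
    simp only [ex_ψ k, End.θZ, hc_one (hL.trans hz.le), one_smul, map_smul, smul_sub, smul_smul]
    congr 2
    ring
  · have k := End.U_mono _ hR hx
    rw [nB_off (off a ne x k)]
    simp [ex_off fun e => disjoint_left.1 (X.dis ne) k (End.U_mono _ hl.le e)]

end Crest.Agent.X212.Nt93
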